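import Vale.Agent.P220Z.Dyn.Mod
import Vale.Agent.P220Z.Rig.Circ
import Vale.Agent.P220Z.Rig.Ful

/-!
# P220, Theorem A: bounds for the zeros, mixing, the linear case, the reflection
-/

open Set Metric Topology
open scoped RealInnerProductSpace

namespace Vale.Agent.P220Z.Dyn

open Vale.Agent.P220Z.Def Vale.Agent.P220Z.Rig

section

variable {W : Type} [NormedAddCommGroup W] [InnerProductSpace ℝ W]
  {W' : Type} [NormedAddCommGroup W'] [InnerProductSpace ℝ W']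

theorem avg_map (L : W →L[ℝ] W') (x : X5 W) : avg (fun j => L (x j)) = L (avg x) := by
  rw [avg_apply, avg_apply, map_smul, map_sum]

theorem perp_map (L : W →L[ℝ] W') (x : X5 W) :
    perp (fun j => L (x j)) = fun j => L (perp x j) := by
  funext j
  rw [perp_apply, perp_apply, avg_map, map_sub]

theorem sum_perp (x : X5 W) : ∑ j, perp x j = 0 := by
  have h := avg_perp x
  rw [avg_apply] at h
  exact (smul_eq_zero.1 h).resolve_left (by norm_num)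

theorem sq_le_add_perp (x : X5 W) {k : ℝ} (hk : 0 ≤ k) :
    ∑ j, ‖x j‖ ^ 2 ≤ ∑ j, ‖(x + k • perp x) j‖ ^ 2 := by
  have h1 : ∀ j, ‖x j‖ ^ 2 + 2 * k * ⟪avg x, perp x j⟫ ≤ ‖(x + k • perp x) j‖ ^ 2 := fun j => by
    have e : ⟪x j, perp x j⟫ = ‖perp x j‖ ^ 2 + ⟪avg x, perp x j⟫ := by
      rw [← real_inner_self_eq_norm_sq, ← inner_add_left, perp_apply, sub_add_cancel]
    rw [Pi.add_apply, Pi.smul_apply, norm_add_sq_real, real_inner_smul_right, e]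
    nlinarith [sq_nonneg ‖k • perp x j‖, mul_nonneg hk (sq_nonneg ‖perp x j‖)]
  have h2 := Finset.sum_le_sum fun j (_ : j ∈ Finset.univ) => h1 j
  rwa [Finset.sum_add_distrib, ← Finset.mul_sum, ← inner_sum, sum_perp, inner_zero_right, mul_zero,
    add_zero] at h2

theorem sq_map_rho (L : W →L[ℝ] W') (s : ℝ) (q : X5 W) :
    ∑ j, ‖L (rho s q j)‖ ^ 2 = ∑ j, ‖L (q j)‖ ^ 2 := by
  rw [← sq_rho s fun j => L (q j), rho_map]

theorem sq_map_le (L : W →L[ℝ] W') {s k : ℝ} (hk : 0 ≤ k) {w q : X5 W}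
    (h : w + k • perp w = rho s q) : ∑ j, ‖L (w j)‖ ^ 2 ≤ ∑ j, ‖L (q j)‖ ^ 2 := by
  rw [← sq_map_rho L s q, ← h]
  refine (sq_le_add_perp (fun j => L (w j)) hk).trans_eq (Finset.sum_congr rfl fun j _ => ?_)
  rw [perp_map]
  simp

theorem mix_rho (s : ℝ) (v : X5 W) : Mix v (rho s v) := fun S => by
  rw [← ip_rho s (fun j => S (v j)) v, rho_map]

theorem rho_add_const (s : ℝ) (c : W) (v : X5 W) :
    rho s (fun j => c + v j) = fun j => c + rho s v j := by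
  have e : (fun j => c + v j) = (fun _ => c) + v := rfl
  rw [e, map_add, rho_const]
  rfl

/-- the linear case has no zero off the diagonal -/
theorem adm_lin {s : ℝ} (hs : s ∈ Icc (1 : ℝ) 2) (c : W) {B : W →L[ℝ] W}
    (hB : ∀ u v, ⟪B u, v⟫ = ⟪u, B v⟫) (hp : ∀ v, 0 ≤ ⟪B v, v⟫) {w : X5 W} {k : ℝ} (hk : 0 < k)
    (h : w + k • perp w = rho s fun j => c + B (w j - c)) : perp w = 0 := by
  have h1 := congrArg perp h
  have e : (fun j => c + B (w j - c)) = (fun _ => c - B c) + fun j => B (w j) := by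
    funext j
    simp only [Pi.add_apply, map_sub]
    abel
  rw [map_add, map_smul, perp_perp, perp_rho, e, map_add, perp_const, zero_add, perp_map] at h1
  refine lin5 s hs (1 + k) (by linarith) B hB hp _ (avg_perp w) ?_
  rw [← h1, add_smul, one_smul]

theorem rho_int {s : ℝ} (hs : s = 1 ∨ s = 2) : ∃ k : ZMod 5, ∀ (x : X5 W) j, rho s x j = x (j - k) := by
  rcases hs with rfl | rfl
  · exact ⟨1, fun x j => by rw [rho_one]; rfl⟩
  · refine ⟨1 + 1, fun x j => ?_⟩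
    rw [rho_two, ← sub_sub]
    rfl

/-- the reflection of the five copies -/
noncomputable def refl5 (W : Type) [NormedAddCommGroup W] [NormedSpace ℝ W] : X5 W ≃L[ℝ] X5 W where
  toFun x j := x (-j)
  invFun x j := x (-j)
  map_add' _ _ := rfl
  map_smul' _ _ := rfl
  left_inv x := by simp
  right_inv x := by simp
  continuous_toFun := by fun_prop
  continuous_invFun := by fun_prop

theorem refl5_apply (x : X5 W) (j : ZMod 5) : refl5 W x j = x (-j) := rfl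

theorem refl5_pi5 (ρ : G5 →* (W ≃ₗᵢ[ℝ] W)) (γ : G3) (z : X5 W) :
    refl5 W (pi5 ρ γ z) = pi5 ρ (γ.1, γ.2⁻¹) (refl5 W z) := by
  funext j
  simp only [refl5_apply, pi5_apply, toAdd_inv]
  congr 2
  ring

theorem perp_refl5 (z : X5 W) : perp (refl5 W z) = refl5 W (perp z) := by
  funext j
  rw [refl5_apply, perp_apply, perp_apply, refl5_apply, avg_apply, avg_apply]
  congr 2
  exact Equiv.sum_comp (Equiv.neg _) z

theorem norm_refl5 (z : X5 W) : ‖refl5 W z‖ = ‖z‖ := by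
  refine le_antisymm ((pi_norm_le_iff_of_nonneg (norm_nonneg _)).2 fun j => norm_le_pi_norm z _)
    ((pi_norm_le_iff_of_nonneg (norm_nonneg _)).2 fun j => ?_)
  simpa [refl5_apply] using norm_le_pi_norm (refl5 W z) (-j)

theorem rho_refl5 (s : ℝ) (x : X5 W) : rho s (refl5 W x) = refl5 W (rho (-s) x) := by
  have := rho_neg (-s) x
  rwa [neg_neg] at this

end

section

variable {U : Type} [NormedAddCommGroup U] [InnerProductSpace ℝ U]
  {A : Type} [NormedAddCommGroup A] [InnerProductSpace ℝ A] {J : A →L[ℝ] A}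

/-- `neg` as a linear map -/
noncomputable def negL (J : A →L[ℝ] A) : Fib U A →L[ℝ] A :=
  (1 / 2 : ℝ) • (WithLp.sndL 2 ℝ U A - J.comp (WithLp.sndL 2 ℝ U A))

/-- `pos` as a linear map -/
noncomputable def posL (J : A →L[ℝ] A) : Fib U A →L[ℝ] A :=
  (1 / 2 : ℝ) • (WithLp.sndL 2 ℝ U A + J.comp (WithLp.sndL 2 ℝ U A))

theorem negL_apply (w : Fib U A) : negL J w = neg J w := rfl

theorem posL_apply (w : Fib U A) : posL J w = pos J w := rfl

theorem neg_zero_le (hJ : IsInv J) {s k : ℝ} (hk : 0 ≤ k) {w q : X5 (Fib U A)}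
    (hd : k * ‖perp w‖ ≤ 1) (h : w + k • perp w = rho s q) :
    ∑ j, ‖neg J (q j)‖ ^ 2 ≤ ∑ j, (‖neg J (w j)‖ + 1) ^ 2 := by
  have h1 := sq_map_rho (negL J) s q
  simp only [negL_apply] at h1
  rw [← h1, ← h]
  refine Finset.sum_le_sum fun j _ => pow_le_pow_left₀ (norm_nonneg _) ?_ 2
  rw [← negL_apply, Pi.add_apply, map_add, negL_apply, negL_apply]
  refine (norm_add_le _ _).trans (add_le_add le_rfl ?_)
  refine (hJ.neg_le _).trans ((WithLp.norm_snd_le _ _).trans ?_)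
  rw [Pi.smul_apply, norm_smul, Real.norm_of_nonneg hk]
  exact (mul_le_mul_of_nonneg_left (norm_le_pi_norm _ j) hk).trans hd

/-- a point with a large negative part is not a component of the image of a bounded zero -/
theorem neg_lt (hJ : IsInv J) {s k K₀ : ℝ} (hk : 0 ≤ k) {w q : X5 (Fib U A)}
    (hd : k * ‖perp w‖ ≤ 1) (h : w + k • perp w = rho s q) (hw : ∀ j, ‖w j‖ ≤ K₀) (i : ZMod 5) :
    ‖neg J (q i)‖ < 3 * (K₀ + 1) := by
  have h1 := neg_zero_le hJ hk hd h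
  have h2 : ‖neg J (q i)‖ ^ 2 ≤ ∑ j, ‖neg J (q j)‖ ^ 2 :=
    Finset.single_le_sum (f := fun j => ‖neg J (q j)‖ ^ 2) (fun _ _ => sq_nonneg _)
      (Finset.mem_univ i)
  have h3 : ∑ j, (‖neg J (w j)‖ + 1) ^ 2 ≤ ∑ _j : ZMod 5, (K₀ + 1) ^ 2 :=
    Finset.sum_le_sum fun j _ => pow_le_pow_left₀ (by positivity)
      (add_le_add ((hJ.neg_le _).trans ((WithLp.norm_snd_le _ _).trans (hw j))) le_rfl) 2
  simp only [Finset.sum_const, Finset.card_univ, ZMod.card, nsmul_eq_mul, Nat.cast_ofNat] at h3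
  have h4 : 0 ≤ K₀ := (norm_nonneg _).trans (hw i)
  by_contra hlt
  have h5 := pow_le_pow_left₀ (by positivity) (not_lt.1 hlt) 2
  nlinarith

/-- the bound for the zeros -/
theorem exists_bound (R θ C₂ : ℝ) (hθ0 : 0 ≤ θ) (hθ : θ < 1) : ∃ R₀ : ℝ, 0 ≤ R₀ ∧
    ∀ (J : A →L[ℝ] A), IsInv J → ∀ (s k : ℝ) (w q : X5 (Fib U A)), 0 ≤ k → k * ‖perp w‖ ≤ 1 →
      w + k • perp w = rho s q → (∀ j, ‖(q j).fst‖ ≤ R) →
      ∑ j, ‖pos J (q j)‖ ^ 2 ≤ θ * ∑ j, ‖pos J (w j)‖ ^ 2 + C₂ →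
      ∑ j, ‖neg J (w j)‖ ^ 2 ≤ θ * ∑ j, ‖neg J (q j)‖ ^ 2 + C₂ → ∀ j, ‖w j‖ ≤ R₀ := by
  have h1 : 0 < 1 - θ := by linarith
  refine ⟨3 + 5 * R ^ 2 + |C₂| / (1 - θ) + 2 * (5 * (1 + 2 / (1 - θ)) + |C₂|) / (1 - θ),
    by positivity, fun J hJ s k w q hk hd h hf hp hn j => ?_⟩
  have a1 := sq_map_le (WithLp.fstL 2 ℝ U A) hk h
  have a2 := sq_map_le (posL J) hk h
  have a3 := neg_zero_le hJ hk hd h
  simp only [posL_apply, WithLp.fstL_apply] at a1 a2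
  have b1 : ∑ j, ‖(q j).fst‖ ^ 2 ≤ ∑ _j : ZMod 5, R ^ 2 :=
    Finset.sum_le_sum fun j _ => pow_le_pow_left₀ (norm_nonneg _) (hf j) 2
  have b2 : ∑ j, ‖pos J (w j)‖ ^ 2 ≤ |C₂| / (1 - θ) := by
    rw [le_div_iff₀ h1]
    linarith [le_abs_self C₂]
  have b3 : ∀ x : ℝ, θ * (x + 1) ^ 2 ≤ (1 + θ) / 2 * x ^ 2 + (1 + 2 / (1 - θ)) := fun x => by
    have e : 2 / (1 - θ) * (1 - θ) = 2 := div_mul_cancel₀ _ h1.ne'
    refine le_of_mul_le_mul_left ?_ h1
    nlinarith [sq_nonneg ((1 - θ) * x - 2 * θ), mul_nonneg hθ0 h1.le, sq_nonneg (1 - θ)]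
  have b4 := Finset.sum_le_sum fun j (_ : j ∈ Finset.univ) => b3 ‖neg J (w j)‖
  simp only [Finset.sum_add_distrib, ← Finset.mul_sum, Finset.sum_const, Finset.card_univ,
    ZMod.card, nsmul_eq_mul, Nat.cast_ofNat] at b1 b4
  have b5 : ∑ j, ‖neg J (w j)‖ ^ 2 ≤ 2 * (5 * (1 + 2 / (1 - θ)) + |C₂|) / (1 - θ) := by
    rw [le_div_iff₀ h1]
    linarith [le_abs_self C₂, mul_le_mul_of_nonneg_left a3 hθ0]
  have c1 : ‖(w j).fst‖ ^ 2 ≤ ∑ j, ‖(w j).fst‖ ^ 2 :=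
    Finset.single_le_sum (f := fun j => ‖(w j).fst‖ ^ 2) (fun _ _ => sq_nonneg _)
      (Finset.mem_univ j)
  have c2 : ‖pos J (w j)‖ ^ 2 ≤ ∑ j, ‖pos J (w j)‖ ^ 2 :=
    Finset.single_le_sum (f := fun j => ‖pos J (w j)‖ ^ 2) (fun _ _ => sq_nonneg _)
      (Finset.mem_univ j)
  have c3 : ‖neg J (w j)‖ ^ 2 ≤ ∑ j, ‖neg J (w j)‖ ^ 2 :=
    Finset.single_le_sum (f := fun j => ‖neg J (w j)‖ ^ 2) (fun _ _ => sq_nonneg _)
      (Finset.mem_univ j)
  have d1 := norm_le_fst_snd (w j)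
  have d2 := norm_add_le (pos J (w j)) (neg J (w j))
  rw [pos_add_neg] at d2
  nlinarith [sq_nonneg (‖(w j).fst‖ - 1), sq_nonneg (‖pos J (w j)‖ - 1),
    sq_nonneg (‖neg J (w j)‖ - 1), norm_nonneg (w j).fst, norm_nonneg (pos J (w j)),
    norm_nonneg (neg J (w j))]

end

end Vale.Agent.P220Z.Dyn
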