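import Vale.Agent.P220Z.Dyn.Mod

/-!
# P220, dynamics: the theorem
-/

open Set Metric Filter Topology
open scoped RealInnerProductSpace

namespace Vale.Agent.P220Z.Dyn

section Lin

variable {W : Type} [NormedAddCommGroup W] [InnerProductSpace ℝ W]

/-- symmetric operators -/
def Sym (T : W →L[ℝ] W) : Prop := ∀ u v, ⟪T u, v⟫ = ⟪u, T v⟫

theorem Sym.pow {T : W →L[ℝ] W} (h : Sym T) (n : ℕ) : Sym (T ^ n) := by
  induction n with
  | zero => intro u v; simp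
  | succ n ih =>
    intro u v
    rw [pow_succ, ContinuousLinearMap.mul_apply, ih, h, ← ContinuousLinearMap.mul_apply,
      ← pow_succ', pow_succ]

/-- the operator `1 - s H` -/
noncomputable def stepL (H : W →L[ℝ] W) (s : ℝ) : W →L[ℝ] W := 1 - s • H

theorem stepL_apply (H : W →L[ℝ] W) (s : ℝ) (v : W) : stepL H s v = v - s • H v := rfl

theorem Sym.stepL {H : W →L[ℝ] W} (h : Sym H) (s : ℝ) : Sym (stepL H s) := fun u v => by
  rw [stepL_apply, stepL_apply, inner_sub_left, inner_sub_right, real_inner_smul_left,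
    real_inner_smul_right, h]

theorem commute_stepL (H : W →L[ℝ] W) (s t : ℝ) : Commute (stepL H s) (stepL H t) := by
  ext v
  simp only [ContinuousLinearMap.mul_apply, stepL_apply, map_sub, map_smul]
  module

theorem sym_path {H : W →L[ℝ] W} (h : Sym H) (s t : ℝ) (n : ℕ) :
    Sym (stepL H s ^ n * stepL H t) := fun u v => by
  rw [ContinuousLinearMap.mul_apply, (h.stepL s).pow, h.stepL t, ← ContinuousLinearMap.mul_apply,
    ((commute_stepL H s t).pow_left n).eq]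

theorem pos_path {H : W →L[ℝ] W} (h : Sym H) (s : ℝ) {t : ℝ} (hT : ∀ v, 0 ≤ ⟪stepL H t v, v⟫)
    (m : ℕ) (v : W) : 0 ≤ ⟪(stepL H s ^ (2 * m) * stepL H t) v, v⟫ := by
  rw [two_mul, pow_add, mul_assoc, ContinuousLinearMap.mul_apply, (h.stepL s).pow,
    ((commute_stepL H s t).pow_left m).eq, ContinuousLinearMap.mul_apply]
  exact hT _

theorem iter_lin {g : W → W} {c : W} {T : W →L[ℝ] W} {r : ℝ}
    (hg : ∀ v, ‖v‖ ≤ r → g (c + v) = c + T v) (hT : ∀ v, ‖T v‖ ≤ 2 * ‖v‖) (n : ℕ) :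
    ∀ v, 2 ^ n * ‖v‖ ≤ r → g^[n] (c + v) = c + (T ^ n) v ∧ ‖(T ^ n) v‖ ≤ 2 ^ n * ‖v‖ := by
  induction n with
  | zero => intro v _; simp
  | succ n ih =>
    intro v hv
    have h1 : (1 : ℝ) ≤ 2 ^ (n + 1) := one_le_pow₀ one_le_two
    have h2 := mul_le_mul_of_nonneg_right h1 (norm_nonneg v)
    have h3 : 2 ^ n * ‖T v‖ ≤ 2 ^ (n + 1) * ‖v‖ := by
      rw [pow_succ, mul_assoc]
      exact mul_le_mul_of_nonneg_left (hT v) (by positivity)
    obtain ⟨i1, i2⟩ := ih (T v) (h3.trans hv)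
    rw [Function.iterate_succ_apply, hg v (by linarith), pow_succ T,
      ContinuousLinearMap.mul_apply]
    exact ⟨i1, i2.trans h3⟩

end Lin

theorem continuous_iter {P W : Type} [TopologicalSpace P] [TopologicalSpace W] {q : P → W → W}
    (hq : Continuous fun z : P × W => q z.1 z.2) {x : P → W} (hx : Continuous x) (n : ℕ) :
    Continuous fun z => (q z)^[n] (x z) := by
  induction n with
  | zero => exact hx
  | succ n ih =>
    simp only [Function.iterate_succ_apply']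
    exact hq.comp (continuous_id.prodMk ih)

section

variable {G : Type} [Group G]
  {EB : Type} [NormedAddCommGroup EB] [InnerProductSpace ℝ EB]
  {U : Type} [NormedAddCommGroup U] [InnerProductSpace ℝ U] [FiniteDimensional ℝ U]
  {A : Type} [NormedAddCommGroup A] [InnerProductSpace ℝ A] [FiniteDimensional ℝ A]
  {β : G →* (EB ≃ₗᵢ[ℝ] EB)} {B : Set EB} {ρ : G →* (Fib U A ≃ₗᵢ[ℝ] Fib U A)} {φ : U → ℝ}
  {J : A →L[ℝ] A} {R L C e₀ c₀ : ℝ} {F : EB × Fib U A → ℝ} {X : EB × Fib U A → Fib U A}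
  {c : EB → Fib U A} {X' : EB × Fib U A → Fib U A} {L' C' Λ ε κ₀ : ℝ}

/-- the step of length `s` -/
noncomputable def stp (X : EB × Fib U A → Fib U A) (s : ℝ) (b : EB) (w : Fib U A) : Fib U A :=
  w - s • X (b, w)

omit [FiniteDimensional ℝ U] [FiniteDimensional ℝ A] in
theorem stp_equi (hX : IsFld β B ρ φ J R L C e₀ c₀ X) (s : ℝ) (g : G) {b : EB} (hb : b ∈ B)
    (n : ℕ) (w : Fib U A) : (stp X s (β g b))^[n] (ρ g w) = ρ g ((stp X s b)^[n] w) := by
  have h : Function.Semiconj (ρ g) (stp X s b) (stp X s (β g b)) := fun w => by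
    simp only [stp, map_sub, map_smul, hX.equi g b hb]
  exact (h.iterate_right n w).symm

omit [FiniteDimensional ℝ U] [FiniteDimensional ℝ A] [InnerProductSpace ℝ U]
  [NormedAddCommGroup U] in
theorem snd_le {w : Fib U A} {K : ℝ} (hp : ‖pos J w‖ ≤ K) (hm : ‖neg J w‖ ≤ K) :
    ‖w.snd‖ ≤ 2 * K := by
  rw [← pos_add_neg J w]
  linarith [norm_add_le (pos J w) (neg J w)]

theorem IsRD.field_low (h : IsRD β B ρ φ J R L C e₀ c₀ F X)
    (hm : IsMod β B ρ φ J R e₀ c₀ X c X' L' C' Λ ε κ₀) (K : ℝ) :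
    ∃ κ₁ > 0, ∀ b ∈ B, ∀ w : Fib U A, φ w.fst ≤ 0 → ‖w.snd‖ ≤ K →
      κ₁ * ‖w - c b‖ ≤ ‖X (b, w)‖ := by
  have hc : Continuous fun z : EB × Fib U A => z.2 - c z.1 :=
    continuous_snd.sub (hm.cc.comp continuous_fst)
  have hK := h.compact K (T := {z | ε ≤ ‖z.2 - c z.1‖}) (isClosed_le continuous_const hc.norm)
  obtain ⟨γ, hγ, hle⟩ := hK.exists_forall_le' h.fld.cont.norm.continuousOn (a := 0) fun z hz => by
    refine norm_pos_iff.2 fun h0 => ?_
    have h1 := hm.uniq z.1 hz.1 z.2 hz.2.1 h0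
    have h2 : ε ≤ ‖z.2 - c z.1‖ := hz.2.2.2
    rw [h1, sub_self, norm_zero] at h2
    linarith [hm.epos]
  obtain ⟨M, hM⟩ := hK.exists_bound_of_continuousOn hc.continuousOn
  have hM0 : 0 < |M| + 1 := by positivity
  refine ⟨min κ₀ (γ / (|M| + 1)), lt_min hm.kpos (by positivity), fun b hb w hw hs => ?_⟩
  rcases le_total ‖w - c b‖ ε with hv | hv
  · have := hm.low b hb _ hv
    rw [add_sub_cancel] at this
    exact (mul_le_mul_of_nonneg_right (min_le_left _ _) (norm_nonneg _)).trans this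
  · have h1 := hle (b, w) ⟨hb, hw, hs, hv⟩
    have h2 : ‖w - c b‖ ≤ |M| + 1 := by
      linarith [hM (b, w) ⟨hb, hw, hs, hv⟩, le_abs_self M]
    calc min κ₀ (γ / (|M| + 1)) * ‖w - c b‖ ≤ γ / (|M| + 1) * (|M| + 1) :=
          mul_le_mul (min_le_right _ _) h2 (norm_nonneg _) (by positivity)
      _ = γ := div_mul_cancel₀ _ hM0.ne'
      _ ≤ _ := h1

omit [FiniteDimensional ℝ U] [FiniteDimensional ℝ A] in
theorem IsRD.sys (h : IsRD β B ρ φ J R L C e₀ c₀ F X)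
    (hm : IsMod β B ρ φ J R e₀ c₀ X c X' L' C' Λ ε κ₀) {t K κ₁ : ℝ} {b : EB} (hb : b ∈ B)
    (hs : Stp φ J t |C'| e₀ c₀ fun w => X' (b, w)) (htL : t * |L| ≤ 1 / 8) (hK : |C'| ≤ K)
    (hκ : 0 < κ₁) (hlow : ∀ w : Fib U A, φ w.fst ≤ 0 → ‖w.snd‖ ≤ 2 * K →
      κ₁ * ‖w - c b‖ ≤ ‖X (b, w)‖) :
    Sys {w : Fib U A | φ w.fst ≤ 0} (fun w => ‖neg J w‖) (fun w => ‖pos J w‖) K (t * κ₁ ^ 2 / 2)
      (fun w => F (b, w)) (c b) fun u => stp X' (u * t) b := by
  have ht := hs.tpos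
  have hu : ∀ u ∈ Icc (0 : ℝ) 1, u * t ∈ Icc (0 : ℝ) t := fun u hu =>
    ⟨mul_nonneg hu.1 ht.le, mul_le_of_le_one_left ht.le hu.2⟩
  have hin : ∀ u ∈ Icc (0 : ℝ) 1, ∀ w : Fib U A, φ w.fst ≤ 0 → φ (stp X' (u * t) b w).fst ≤ 0 :=
    fun u hu' w hw => by
      have := hs.keep (hu u hu') le_rfl (by linarith [hs.epos]) (w := w) (by simpa using hw)
      rwa [neg_zero] at this
  refine ⟨by positivity, hin, fun u hu' w hw hp => hs.pos_keep (hu u hu') hK hw hp,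
    fun u hu' w hw hp => hp.trans (hs.neg_keep (hu u hu') hw (hK.trans hp)),
    fun u hu' w hw hp hn => ?_⟩
  have hw' : φ w.fst ≤ 0 := hw
  have hS : Convex ℝ {w : Fib U A | ‖w.fst‖ ≤ R} := by
    have e : {w : Fib U A | ‖w.fst‖ ≤ R} = (WithLp.fstL 2 ℝ U A).toLinearMap ⁻¹' closedBall 0 R := by
      ext w
      exact mem_closedBall_zero_iff.symm
    rw [e]
    exact (convex_closedBall (0 : U) R).linear_preimage _
  have h1 := descent (h.grad b) hS (abs_nonneg L)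
    (fun w hw w' hw' => (h.fld.lip b hb w w' hw hw').trans
      (mul_le_mul_of_nonneg_right (le_abs_self L) (norm_nonneg _)))
    (w := w) (h := -((u * t) • X' (b, w))) (show ‖w.fst‖ ≤ R by linarith [h.dm.bdd _ hw'])
    (by
      rw [← sub_eq_add_neg]
      show ‖(stp X' (u * t) b w).fst‖ ≤ R
      linarith [h.dm.bdd _ (hin u hu' w hw')])
  rw [← sub_eq_add_neg, inner_neg_right, real_inner_smul_right, norm_neg, norm_smul,
    Real.norm_of_nonneg (hu u hu').1] at h1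
  have h2 := hm.near b hb w
  have h3 : 3 / 4 * ‖X (b, w)‖ ^ 2 ≤ ⟪X (b, w), X' (b, w)⟫ := by
    have e : ⟪X (b, w), X' (b, w)⟫ = ‖X (b, w)‖ ^ 2 + ⟪X (b, w), X' (b, w) - X (b, w)⟫ := by
      rw [inner_sub_right, real_inner_self_eq_norm_sq]
      ring
    have h4 := (abs_le.1 (abs_real_inner_le_norm (X (b, w)) (X' (b, w) - X (b, w)))).1
    have h5 := mul_le_mul_of_nonneg_left h2 (norm_nonneg (X (b, w)))
    nlinarith
  have h4 : ‖X' (b, w)‖ ≤ 5 / 4 * ‖X (b, w)‖ := by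
    linarith [norm_sub_norm_le (X' (b, w)) (X (b, w))]
  have h5 : ‖X' (b, w)‖ ^ 2 ≤ (5 / 4 * ‖X (b, w)‖) ^ 2 := pow_le_pow_left₀ (norm_nonneg _) h4 2
  have h6 : (κ₁ * ‖w - c b‖) ^ 2 ≤ ‖X (b, w)‖ ^ 2 :=
    pow_le_pow_left₀ (by positivity) (hlow w hw' (snd_le hp hn)) 2
  obtain ⟨s, hs', hs0, hsL⟩ : ∃ s, s = u * t ∧ 0 ≤ s ∧ |L| * s ≤ 1 / 8 :=
    ⟨_, rfl, (hu u hu').1, by
      linarith [mul_le_mul_of_nonneg_left (hu u hu').2 (abs_nonneg L)]⟩
  have e : u * (t * κ₁ ^ 2 / 2) * ‖w - c b‖ ^ 2 = s * (κ₁ * ‖w - c b‖) ^ 2 / 2 := by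
    rw [hs']
    ring
  show F (b, w - (u * t) • X' (b, w)) ≤ F (b, w) - _
  rw [e]
  rw [← hs'] at h1 ⊢
  have h7 := mul_le_mul_of_nonneg_left h3 hs0
  have h8 := mul_le_mul_of_nonneg_left h6 hs0
  have h9 : |L| * (s * ‖X' (b, w)‖) ^ 2 ≤ 1 / 8 * (s * (5 / 4 * ‖X (b, w)‖) ^ 2) := by
    calc |L| * (s * ‖X' (b, w)‖) ^ 2 = |L| * s * (s * ‖X' (b, w)‖ ^ 2) := by ring
      _ ≤ _ := mul_le_mul hsL (mul_le_mul_of_nonneg_left h5 hs0) (by positivity) (by norm_num)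
  have h10 : 0 ≤ s * ‖X (b, w)‖ ^ 2 := by positivity
  nlinarith

end

theorem stDyn : StDyn := by
  intro G _ EB _ _ U _ _ _ A _ _ _ β B ρ φ J R L C e₀ c₀ F X h
  obtain ⟨c, X', L', C', Λ, ε, κ₀, hm⟩ := h.exists_mod
  obtain ⟨t₁, ht₁, hstp⟩ := exists_stp C' h.dm h.epos h.cpos
  obtain ⟨Mc, hMc⟩ := h.cpt.exists_bound_of_continuousOn hm.cc.continuousOn
  have hΛ := hm.lpos
  have hε := hm.epos
  refine ⟨X', L', C', hm.fld, min t₁ (min (1 / (8 * (|L| + 1))) (1 / Λ)), by positivity,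
    fun t ht => ?_⟩
  have ht0 := ht.1
  have hs := fun b hb => hstp t ⟨ht0, ht.2.trans (min_le_left _ _)⟩ G EB A β B ρ J L' X' h.inv
    hm.fld b hb
  have htL : t * |L| ≤ 1 / 8 := by
    have := ht.2.trans ((min_le_right _ _).trans (min_le_left _ _))
    rw [le_div_iff₀ (by positivity)] at this
    nlinarith
  have htΛ : t * Λ ≤ 1 := by
    have := ht.2.trans ((min_le_right _ _).trans (min_le_right _ _))
    rwa [le_div_iff₀ hΛ] at this
  have h1t := one_sub_pos ht0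
  obtain ⟨C₁, hC1, hC2, hC3⟩ : ∃ C₁, (2 * |C'|) ^ 2 ≤ (1 - 1 / (1 + t)) * C₁ ∧ |C'| ≤ C₁ ∧
      |Mc| + 4 ≤ C₁ := by
    have h0 : 0 ≤ (2 * |C'|) ^ 2 / (1 - 1 / (1 + t)) := by positivity
    refine ⟨(2 * |C'|) ^ 2 / (1 - 1 / (1 + t)) + (|C'| + |Mc| + 4), ?_,
      by linarith [abs_nonneg Mc], by linarith [abs_nonneg C']⟩
    rw [mul_add, mul_div_cancel₀ _ h1t.ne']
    have : 0 ≤ (1 - 1 / (1 + t)) * (|C'| + |Mc| + 4) := by positivity
    linarith
  have he0 := h.epos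
  have hc0 := h.cpos
  refine ⟨min (t * c₀ / 2) (e₀ / 2), by positivity, 1 / (1 + t), C₁, by positivity, by linarith,
    fun K hK => ?_⟩
  obtain ⟨κ₁, hκ₁, hlow⟩ := h.field_low hm (2 * K)
  have hsys := fun b hb => h.sys hm hb (hs b hb) htL (hC2.trans hK) hκ₁ (hlow b hb)
  obtain ⟨κ, hκe⟩ : ∃ κ, κ = t * κ₁ ^ 2 / 2 := ⟨_, rfl⟩
  rw [← hκe] at hsys
  have hκ : 0 < κ := by
    rw [hκe]
    positivity
  obtain ⟨ε₃, hε₃, hT⟩ := taylor_field h.cpt h.sX hm.cc hm.zero (ω := κ / 80) (by positivity)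
  obtain ⟨e₁, he₁, he1, he2, he3⟩ : ∃ e₁ > 0, e₁ ≤ 1 ∧ 3 * e₁ ≤ ε ∧ 3 * e₁ ≤ ε₃ :=
    ⟨min 1 (min (ε / 3) (ε₃ / 3)), by positivity, min_le_left _ _,
      by linarith [(min_le_right 1 _).trans (min_le_left (ε / 3) (ε₃ / 3))],
      by linarith [(min_le_right 1 _).trans (min_le_right (ε / 3) (ε₃ / 3))]⟩
  have hsym : ∀ b, Sym (dX X b (c b)) := fun b =>
    symm_of_grad (h.grad b) (hasFDerivAt_dX h.sX b (c b))
  have hFc : Continuous fun z : EB × Fib U A => |F z - F (z.1, c z.1)| :=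
    (h.cF.sub (h.cF.comp (continuous_fst.prodMk (hm.cc.comp continuous_fst)))).abs
  obtain ⟨δ₀, hδ₀, hδ⟩ := (h.compact (2 * K) (T := {z | κ * e₁ ^ 2 / 80 ≤ |F z - F (z.1, c z.1)|})
    (isClosed_le continuous_const hFc)).exists_forall_le'
    (continuous_snd.sub (hm.cc.comp continuous_fst)).norm.continuousOn (a := 0) fun z hz => by
      refine norm_pos_iff.2 fun h0 => ?_
      have h1 : z.2 = c z.1 := sub_eq_zero.1 h0
      have h2 : κ * e₁ ^ 2 / 80 ≤ |F z - F (z.1, c z.1)| := hz.2.2.2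
      rw [← h1, sub_self, abs_zero] at h2
      have : 0 < κ * e₁ ^ 2 / 80 := by positivity
      linarith
  obtain ⟨M, hM⟩ := (h.compact (2 * K) isClosed_univ).exists_bound_of_continuousOn
    h.cF.continuousOn
  obtain ⟨n₀, hn₀⟩ := exists_nat_gt (2 * M / (κ * δ₀ ^ 2))
  have hstepL : ∀ s ∈ Icc (0 : ℝ) t, ∀ b ∈ B, ∀ v, ‖s • dX X b (c b) v‖ ≤ ‖v‖ := by
    intro s hs' b hb v
    rw [norm_smul, Real.norm_of_nonneg hs'.1]
    calc s * ‖dX X b (c b) v‖ ≤ t * (Λ * ‖v‖) :=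
          mul_le_mul hs'.2 (hm.hle b hb v) (norm_nonneg _) ht0.le
      _ = t * Λ * ‖v‖ := by ring
      _ ≤ ‖v‖ := mul_le_of_le_one_left (norm_nonneg _) htΛ
  have htwo : ∀ s ∈ Icc (0 : ℝ) t, ∀ b ∈ B, ∀ v, ‖stepL (dX X b (c b)) s v‖ ≤ 2 * ‖v‖ := by
    intro s hs' b hb v
    rw [stepL_apply]
    linarith [norm_sub_le v (s • dX X b (c b) v), hstepL s hs' b hb v]
  have hlin : ∀ s, ∀ b ∈ B, ∀ v, ‖v‖ ≤ ε / 2 →
      stp X' s b (c b + v) = c b + stepL (dX X b (c b)) s v := by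
    intro s b hb v hv
    rw [stp, hm.lin b hb v hv, stepL_apply, add_sub_assoc]
  have htt : t ∈ Icc (0 : ℝ) t := ⟨ht0.le, le_rfl⟩
  have hu : ∀ u ∈ Icc (0 : ℝ) 1, u * t ∈ Icc (0 : ℝ) t := fun u hu =>
    ⟨mul_nonneg hu.1 ht0.le, mul_le_of_le_one_left ht0.le hu.2⟩
  have hloc : ∀ b ∈ B, Loc {w : Fib U A | φ w.fst ≤ 0} (fun w => ‖neg J w‖) (fun w => ‖pos J w‖)
      K κ (fun w => F (b, w)) (c b) (fun u => stp X' (u * t) b) (dX X b (c b)) e₁ n₀ := by
    intro b hb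
    refine ⟨hsys b hb, he₁, fun v hv => ?_, fun v hv => ?_, fun w hw => ?_,
      fun n hn w hw hp hn' => ?_⟩
    · have h1 : ‖(c b + v).snd‖ < K := by
        linarith [WithLp.norm_snd_le _ (c b + v), norm_add_le (c b) v, hMc b hb, le_abs_self Mc]
      exact ⟨hm.ball b hb v (hv.trans he2), ((h.inv.pos_le _).trans h1.le),
        (h.inv.neg_le _).trans_lt h1⟩
    · exact taylor_fun (h.grad b) (hsym b) (by positivity) (hT b hb) (hv.trans he3)
    · have h1 := hlin (1 * t) b hb (w - c b) (by linarith)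
      rw [add_sub_cancel] at h1
      show ‖stp X' (1 * t) b w - c b‖ ≤ _
      rw [h1, add_sub_cancel_left]
      exact htwo _ (hu 1 Sys.one_mem) b hb _
    · refine (hsys b hb).exit hδ₀.le (M := M) (fun w hw hp hn h1 => ?_) (fun w hw hp hn => ?_) ?_
        hw hp hn'
      · exact hδ (b, w) ⟨hb, hw, snd_le hp hn, h1⟩
      · exact hM (b, w) ⟨hb, hw, snd_le hp hn, trivial⟩
      · rw [div_lt_iff₀ (by positivity)] at hn₀
        exact hn₀.trans_le (mul_le_mul_of_nonneg_right (Nat.cast_le.2 hn) (by positivity))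
  have hX' := hm.fld.cont
  have hadd : ∀ b w, (stp X' t b)^[2 * (n₀ + 1)] (stp X' t b w) =
      (stp X' t b)^[n₀ + 2] ((stp X' t b)^[n₀ + 1] w) := fun b w => by
    rw [← Function.iterate_succ_apply, ← Function.iterate_add_apply]
    congr 1
    omega
  have h2p : (2 : ℝ) ^ (2 * (n₀ + 1)) * 2 = 2 ^ (n₀ + 2) * 2 ^ (n₀ + 1) := by ring
  refine ⟨c, e₁, ε / (6 * (2 ^ (n₀ + 2) * 2 ^ (n₀ + 1))), ε / (6 * 2 ^ (n₀ + 2)),
    fun z => (stp X' (z.1 * t) z.2.1)^[2 * (n₀ + 1)] (stp X' t z.2.1 z.2.2),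
    fun z => (stp X' t z.1)^[n₀ + 1] z.2, fun z => (stp X' t z.1)^[n₀ + 2] z.2,
    fun τ b => stepL (dX X b (c b)) (τ * t) ^ (2 * (n₀ + 1)) * stepL (dX X b (c b)) t,
    fun b => stepL (dX X b (c b)) t ^ (n₀ + 1), fun b => stepL (dX X b (c b)) t ^ (n₀ + 2),
    he₁, he1, by positivity, hm.cc, ?_, ?_, ?_, hm.ec, fun τ g b hb w => ?_,
    fun g b hb w => stp_equi hm.fld t g hb _ w, fun g b hb w => stp_equi hm.fld t g hb _ w,
    fun b w => ?_, fun b w => ?_, fun τ hτ b hb => (hs b hb).blk (hu τ hτ) hC1 _,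
    fun b hb => (hs b hb).blk htt hC1 n₀, fun b hb => (hs b hb).blk htt hC1 (n₀ + 1),
    fun b hb => by linarith [hMc b hb, le_abs_self Mc],
    fun b hb v hv => hm.ball b hb v (hv.trans he2), fun τ hτ b hb v hv => ?_,
    fun τ _ b _ => sym_path (hsym b) _ _ _, fun τ _ b hb => pos_path (hsym b) _ (fun v => ?_) _,
    fun b hb v hv => ?_, fun b hb v hv => ?_, fun b v => ?_, fun τ hτ b hb k z hz hD hK' => ?_,
    fun b hb w hw hK' he => ?_, fun b hb w v' hw hK' hv he hmix => ?_,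
    fun b hb k z v' hD hK' hv hmix hz => ?_⟩
  · refine continuous_iter (q := fun z : ℝ × EB × Fib U A => stp X' (z.1 * t) z.2.1) ?_ ?_ _
    · unfold stp
      fun_prop
    · unfold stp
      fun_prop
  · refine continuous_iter (q := fun z : EB × Fib U A => stp X' t z.1) ?_ continuous_snd _
    unfold stp
    fun_prop
  · refine continuous_iter (q := fun z : EB × Fib U A => stp X' t z.1) ?_ continuous_snd _
    unfold stp
    fun_prop
  · have h1 : stp X' t (β g b) (ρ g w) = ρ g (stp X' t b w) := stp_equi hm.fld t g hb 1 w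
    show (stp X' (τ * t) (β g b))^[2 * (n₀ + 1)] (stp X' t (β g b) (ρ g w)) = _
    rw [h1]
    exact stp_equi hm.fld _ g hb _ _
  · exact Function.iterate_fixed (by simp [stp]) _
  · show (stp X' (1 * t) b)^[2 * (n₀ + 1)] (stp X' t b w) = _
    rw [one_mul]
    exact hadd b w
  · rw [le_div_iff₀ (by positivity), ← h2p] at hv
    have h0 : (1 : ℝ) ≤ 2 ^ (2 * (n₀ + 1)) := one_le_pow₀ one_le_two
    have h1 := mul_le_mul_of_nonneg_right h0 (norm_nonneg v)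
    have h2 := mul_le_mul_of_nonneg_left (htwo t htt b hb v)
      (show (0 : ℝ) ≤ 2 ^ (2 * (n₀ + 1)) by positivity)
    show (stp X' (τ * t) b)^[2 * (n₀ + 1)] (stp X' t b (c b + v)) = _
    rw [hlin t b hb v (by nlinarith [norm_nonneg v])]
    exact (iter_lin (hlin (τ * t) b hb) (htwo _ (hu τ hτ) b hb) _ _ (by nlinarith)).1
  · have h1 := (abs_le.1 (abs_real_inner_le_norm (t • dX X b (c b) v) v)).2
    have h2 := mul_le_mul_of_nonneg_right (hstepL t htt b hb v) (norm_nonneg v)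
    rw [stepL_apply, inner_sub_left, real_inner_self_eq_norm_sq]
    nlinarith
  · rw [le_div_iff₀ (by positivity)] at hv
    have h0 : (1 : ℝ) ≤ 2 ^ (n₀ + 2) := one_le_pow₀ one_le_two
    have h1 := mul_le_mul_of_nonneg_right h0
      (show (0 : ℝ) ≤ 2 ^ (n₀ + 1) * ‖v‖ by positivity)
    have h2 := iter_lin (hlin t b hb) (htwo t htt b hb) (n₀ + 1) v (by nlinarith)
    refine ⟨h2.1, h2.2.trans ?_⟩
    rw [le_div_iff₀ (by positivity)]
    linarith
  · refine (iter_lin (hlin t b hb) (htwo t htt b hb) (n₀ + 2) v ?_).1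
    rw [← mul_div_assoc, le_div_iff₀ (by positivity)] at hv
    linarith
  · rw [one_mul, ← pow_succ, ← ContinuousLinearMap.mul_apply, ← pow_add]
    congr 2
    omega
  · refine (hsys b hb).periodic hτ (2 * (n₀ + 1)) k z hD
      (fun i => (h.inv.pos_le _).trans (hK' i).le) (fun i => (h.inv.neg_le _).trans_lt (hK' i))
      fun i => ?_
    rw [one_mul]
    exact hz i
  · have := (hloc b hb).exit0 (n := n₀) (n' := n₀ + 2) le_rfl (by omega) (w := w) hw
      ((h.inv.pos_le _).trans hK') (by rw [one_mul]; exact he)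
    rwa [one_mul] at this
  · have := (hloc b hb).exit5 (n := n₀) (n' := n₀ + 2) le_rfl (by omega) (w := w) (v' := v') hw
      (fun i => (h.inv.pos_le _).trans (hK' i)) (by rw [one_mul]; exact hv)
      (by rw [one_mul]; exact he) (by rw [one_mul]; exact hmix)
    rwa [one_mul] at this
  · exact (hloc b hb).periodic5 (n := n₀ + 1) (n' := n₀ + 1) k (z := z) (v' := v') hD
      (fun i => (h.inv.pos_le _).trans (hK' i).le) (fun i => (h.inv.neg_le _).trans_lt (hK' i))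
      (by rw [one_mul]; exact hv) (by rw [one_mul]; exact hmix) (by rw [one_mul]; exact hz)

end Vale.Agent.P220Z.Dyn
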