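import Vale.Agent.P220Z.Dyn.Bnd
import Vale.Agent.P220Z.Dyn.Main
import Vale.Agent.P220Z.Rig.Path

/-!
# P220, Theorem A: the invariant of the step along the modified field vanishes
-/

open Set Metric Topology Filter
open scoped RealInnerProductSpace

namespace Vale.Agent.P220Z.Dyn

open Vale.Agent.P220Z.Def Vale.Agent.P220Z.Rig

/-- the projection to the unit interval -/
noncomputable def cl01 (τ : ℝ) : ℝ := max 0 (min 1 τ)

theorem cl01_mem (τ : ℝ) : cl01 τ ∈ Icc (0 : ℝ) 1 :=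
  ⟨le_max_left _ _, max_le zero_le_one (min_le_left _ _)⟩

theorem cl01_eq {τ : ℝ} (h : τ ∈ Icc (0 : ℝ) 1) : cl01 τ = τ := by
  rw [cl01, min_eq_right h.2, max_eq_right h.1]

theorem continuous_cl01 : Continuous cl01 := by
  unfold cl01
  fun_prop

theorem rho_center {W : Type} [NormedAddCommGroup W] [InnerProductSpace ℝ W] (s : ℝ) (c : W)
    (y : X5 W) (j : ZMod 5) : rho s y j = c + rho s (fun i => y i - c) j := by
  have := congrFun (rho_add_const s c fun i => y i - c) j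
  simpa using this

theorem contOn_rho {W T : Type} [NormedAddCommGroup W] [NormedSpace ℝ W] [TopologicalSpace T]
    {S : Set T} {a : T → ℝ} {x : T → X5 W} (ha : ContinuousOn a S) (hx : ContinuousOn x S) :
    ContinuousOn (fun w => rho (a w) (x w)) S :=
  Continuous.comp_continuousOn (g := fun p : ℝ × X5 W => rho p.1 p.2) (f := fun w => (a w, x w))
    continuous_rho (ha.prodMk hx)

variable {U : Type} [NormedAddCommGroup U] [InnerProductSpace ℝ U]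
  {A : Type} [NormedAddCommGroup A] [InnerProductSpace ℝ A]

/-- an equivariant retraction of the fibre to the block that keeps the second component -/
structure IsRR (ρ : G5 →* (Fib U A ≃ₗᵢ[ℝ] Fib U A)) (φ : U → ℝ) (rr : EB5 × Fib U A → Fib U A) :
    Prop where
  cont : ContinuousOn rr {y | y.1 ∈ B5}
  mem : ∀ b ∈ B5, ∀ w, φ (rr (b, w)).fst ≤ 0
  snd : ∀ b ∈ B5, ∀ w, (rr (b, w)).snd = w.snd
  fix : ∀ b ∈ B5, ∀ w, φ w.fst ≤ 0 → rr (b, w) = w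
  eq : ∀ g, ∀ b ∈ B5, ∀ w, rr (β5 g b, ρ g w) = ρ g (rr (b, w))

/-- the family over the plane of the `(τ, s)` -/
noncomputable def g1 (p : ℝ × EB5 × Fib U A → Fib U A) (rr : EB5 × Fib U A → Fib U A)
    (w : (ℝ × ℝ) × EB5 × X5 (Fib U A)) : X5 (Fib U A) :=
  rho w.1.2 fun j => p (cl01 w.1.1, w.2.1, rr (w.2.1, w.2.2 j))

/-- the family over the plane of the `(s, s')` -/
noncomputable def g2 (f₁ f₂ rr : EB5 × Fib U A → Fib U A) (w : (ℝ × ℝ) × EB5 × X5 (Fib U A)) :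
    X5 (Fib U A) :=
  rho w.1.1 fun j => f₂ (w.2.1, rho w.1.2 (fun i => f₁ (w.2.1, rr (w.2.1, w.2.2 i))) j)

/-- the domain of the second family -/
def O2 (f₁ rr : EB5 × Fib U A → Fib U A) (c : EB5 → Fib U A) (K₀ e₁ : ℝ) :
    Set ((ℝ × ℝ) × EB5 × X5 (Fib U A)) :=
  {w | ∀ i, ‖w.2.2 i‖ < K₀ ∧ ‖f₁ (w.2.1, rr (w.2.1, w.2.2 i)) - c w.2.1‖ < e₁}

/-- its closed version -/
def O2c (f₁ rr : EB5 × Fib U A → Fib U A) (c : EB5 → Fib U A) (K₀ e₁ : ℝ) :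
    Set ((ℝ × ℝ) × EB5 × X5 (Fib U A)) :=
  {w | ∀ i, ‖w.2.2 i‖ ≤ K₀ ∧ ‖f₁ (w.2.1, rr (w.2.1, w.2.2 i)) - c w.2.1‖ ≤ e₁}

/-- all data -/
structure Ctx (ρ : G5 →* (Fib U A ≃ₗᵢ[ℝ] Fib U A)) (φ : U → ℝ) (J : A →L[ℝ] A)
    (X : EB5 × Fib U A → Fib U A) (t e θ C₁ K : ℝ) (c : EB5 → Fib U A) (e₁ δ δ₂ : ℝ)
    (p : ℝ × EB5 × Fib U A → Fib U A) (f₁ f₂ : EB5 × Fib U A → Fib U A)
    (Bp : ℝ → EB5 → Fib U A →L[ℝ] Fib U A) (B₁ B₂ : EB5 → Fib U A →L[ℝ] Fib U A)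
    (rr : EB5 × Fib U A → Fib U A) (R R₀ : ℝ) : Prop where
  dyn : IsDyn β5 B5 ρ φ J X t e θ C₁ K c e₁ δ δ₂ p f₁ f₂ Bp B₁ B₂
  inv : IsInv J
  dm : IsDm φ R
  e0 : 0 ≤ e
  th0 : 0 ≤ θ
  th1 : θ ≤ 1
  ret : IsRR ρ φ rr
  r0 : 0 ≤ R₀
  kge : 3 * (R₀ + 1 + 1) ≤ K
  bnd : ∀ (s k : ℝ) (w q : X5 (Fib U A)), 0 ≤ k → k * ‖perp w‖ ≤ 1 →
    w + k • perp w = rho s q → (∀ j, ‖(q j).fst‖ ≤ R) →
    ∑ j, ‖pos J (q j)‖ ^ 2 ≤ θ * ∑ j, ‖pos J (w j)‖ ^ 2 + 5 * ((C₁ + 3) ^ 2 + C₁) →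
    ∑ j, ‖neg J (w j)‖ ^ 2 ≤ θ * ∑ j, ‖neg J (q j)‖ ^ 2 + 5 * ((C₁ + 3) ^ 2 + C₁) →
    ∀ j, ‖w j‖ ≤ R₀

namespace Ctx

variable {ρ : G5 →* (Fib U A ≃ₗᵢ[ℝ] Fib U A)} {φ : U → ℝ} {J : A →L[ℝ] A}
  {X : EB5 × Fib U A → Fib U A} {t e θ C₁ K : ℝ} {c : EB5 → Fib U A} {e₁ δ δ₂ : ℝ}
  {p : ℝ × EB5 × Fib U A → Fib U A} {f₁ f₂ : EB5 × Fib U A → Fib U A}
  {Bp : ℝ → EB5 → Fib U A →L[ℝ] Fib U A} {B₁ B₂ : EB5 → Fib U A →L[ℝ] Fib U A}
  {rr : EB5 × Fib U A → Fib U A} {R R₀ : ℝ}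
  (h : Ctx ρ φ J X t e θ C₁ K c e₁ δ δ₂ p f₁ f₂ Bp B₁ B₂ rr R R₀)

include h

theorem neg_rr {b : EB5} (hb : b ∈ B5) (w : Fib U A) : neg J (rr (b, w)) = neg J w := by
  rw [neg, neg, h.ret.snd b hb]

theorem pos_rr {b : EB5} (hb : b ∈ B5) (w : Fib U A) : pos J (rr (b, w)) = pos J w := by
  rw [pos, pos, h.ret.snd b hb]

theorem fst_le {w : Fib U A} (hw : φ w.fst ≤ -e) : ‖w.fst‖ ≤ R := by
  linarith [h.dm.bdd w.fst (by linarith [h.e0])]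

theorem bound1 {τ s k : ℝ} (hτ : τ ∈ Icc (0 : ℝ) 1) {b : EB5} (hb : b ∈ B5) {w : X5 (Fib U A)}
    (hk : 0 ≤ k) (hd : k * ‖perp w‖ ≤ 1)
    (hz : w + k • perp w = rho s fun j => p (τ, b, rr (b, w j))) (j : ZMod 5) : ‖w j‖ ≤ R₀ := by
  have hB := h.dyn.bp τ hτ b hb
  refine h.bnd s k w _ hk hd hz (fun j => h.fst_le (hB.into _ (h.ret.mem b hb _))) ?_ ?_ j
  · have h1 := Finset.sum_le_sum fun j (_ : j ∈ Finset.univ) => hB.pos _ (h.ret.mem b hb (w j))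
    simp only [Finset.sum_add_distrib, ← Finset.mul_sum, Finset.sum_const, Finset.card_univ,
      ZMod.card, nsmul_eq_mul, Nat.cast_ofNat, h.pos_rr hb] at h1
    nlinarith [sq_nonneg (C₁ + 3)]
  · have h1 := Finset.sum_le_sum fun j (_ : j ∈ Finset.univ) => hB.neg _ (h.ret.mem b hb (w j))
    simp only [Finset.sum_add_distrib, ← Finset.mul_sum, Finset.sum_const, Finset.card_univ,
      ZMod.card, nsmul_eq_mul, Nat.cast_ofNat, h.neg_rr hb] at h1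
    nlinarith [sq_nonneg (C₁ + 3)]

theorem mid_le {b : EB5} {y : X5 (Fib U A)} (hv : ∀ i, ‖y i - c b‖ ≤ e₁) (s' : ℝ) (j : ZMod 5) :
    ‖rho s' (fun i => y i - c b) j‖ ≤ 3 * e₁ :=
  (mix_rho s' _).norm_le h.dyn.e1pos.le hv j

theorem mid_mem {b : EB5} (hb : b ∈ B5) {y : X5 (Fib U A)} (hv : ∀ i, ‖y i - c b‖ ≤ e₁) (s' : ℝ)
    (j : ZMod 5) : φ (rho s' y j).fst ≤ 0 := by
  rw [rho_center s' (c b)]
  exact h.dyn.ball b hb _ (h.mid_le hv s' j)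

theorem bound2 {s s' k : ℝ} {b : EB5} (hb : b ∈ B5) {w : X5 (Fib U A)}
    (hv : ∀ i, ‖f₁ (b, rr (b, w i)) - c b‖ ≤ e₁) (hk : 0 ≤ k) (hd : k * ‖perp w‖ ≤ 1)
    (hz : w + k • perp w = g2 f₁ f₂ rr ((s, s'), b, w)) (j : ZMod 5) : ‖w j‖ ≤ R₀ := by
  have hB1 := h.dyn.b1 b hb
  have hB2 := h.dyn.b2 b hb
  have hc := h.dyn.cle b hb
  have hm := h.mid_mem hb hv s'
  have key : ∀ (x y : ℝ), 0 ≤ y → y ≤ C₁ + 3 → x ^ 2 ≤ θ * y ^ 2 + C₁ →
      x ^ 2 ≤ (C₁ + 3) ^ 2 + C₁ := fun x y h0 h1 h2 => by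
    have h3 := pow_le_pow_left₀ h0 h1 2
    have h4 := mul_le_of_le_one_left (sq_nonneg y) h.th1
    linarith
  refine h.bnd s k w _ hk hd hz (fun j => h.fst_le (hB2.into _ (hm j))) ?_ ?_ j
  · have h1 := Finset.sum_le_sum fun j (_ : j ∈ Finset.univ) =>
      key _ _ (norm_nonneg _) (by
        refine (h.inv.pos_le _).trans ((WithLp.norm_snd_le _ _).trans ?_)
        rw [rho_center s' (c b)]
        linarith [norm_add_le (c b) (rho s' (fun i => f₁ (b, rr (b, w i)) - c b) j),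
          h.mid_le hv s' j, h.dyn.e1le]) (hB2.pos _ (hm j))
    simp only [Finset.sum_const, Finset.card_univ, ZMod.card, nsmul_eq_mul, Nat.cast_ofNat] at h1
    have h2 : 0 ≤ θ * ∑ j, ‖pos J (w j)‖ ^ 2 :=
      mul_nonneg h.th0 (Finset.sum_nonneg fun _ _ => sq_nonneg _)
    exact h1.trans (by linarith)
  · have h1 := Finset.sum_le_sum fun j (_ : j ∈ Finset.univ) =>
      key _ _ (norm_nonneg _) (by
        refine (h.inv.neg_le _).trans ((WithLp.norm_snd_le _ _).trans ?_)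
        linarith [norm_sub_norm_le (f₁ (b, rr (b, w j))) (c b), hv j, h.dyn.e1le])
        (hB1.neg _ (h.ret.mem b hb (w j)))
    simp only [Finset.sum_const, Finset.card_univ, ZMod.card, nsmul_eq_mul, Nat.cast_ofNat,
      h.neg_rr hb] at h1
    refine h1.trans (le_add_of_nonneg_left ?_)
    exact mul_nonneg h.th0 (Finset.sum_nonneg fun _ _ => sq_nonneg _)

theorem cont_rr {P : Type} [TopologicalSpace P] (j : ZMod 5) :
    ContinuousOn (fun w : P × EB5 × X5 (Fib U A) => rr (w.2.1, w.2.2 j)) {w | w.2.1 ∈ B5} :=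
  h.ret.cont.comp (by fun_prop) fun _ hw => hw

theorem cont_f1 {P : Type} [TopologicalSpace P] (j : ZMod 5) :
    ContinuousOn (fun w : P × EB5 × X5 (Fib U A) => f₁ (w.2.1, rr (w.2.1, w.2.2 j)))
      {w | w.2.1 ∈ B5} :=
  h.dyn.c1.comp_continuousOn (continuous_snd.fst.continuousOn.prodMk (h.cont_rr j))

theorem cont1 : ContinuousOn (g1 p rr) {w | w.2.1 ∈ B5} := by
  unfold g1
  refine contOn_rho continuous_fst.snd.continuousOn (continuousOn_pi.2 fun j => ?_)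
  exact h.dyn.cp.comp_continuousOn ((continuous_cl01.comp continuous_fst.fst).continuousOn.prodMk
    (continuous_snd.fst.continuousOn.prodMk (h.cont_rr j)))

theorem cont2 : ContinuousOn (g2 f₁ f₂ rr) {w | w.2.1 ∈ B5} := by
  have h1 : ContinuousOn (fun w : (ℝ × ℝ) × EB5 × X5 (Fib U A) =>
      rho w.1.2 fun i => f₁ (w.2.1, rr (w.2.1, w.2.2 i))) {w | w.2.1 ∈ B5} :=
    contOn_rho continuous_fst.snd.continuousOn (continuousOn_pi.2 fun j => h.cont_f1 j)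
  unfold g2
  refine contOn_rho continuous_fst.fst.continuousOn (continuousOn_pi.2 fun j => ?_)
  exact h.dyn.c2.comp_continuousOn
    (continuous_snd.fst.continuousOn.prodMk (continuousOn_pi.1 h1 j))

theorem equi1 (γ : G3) (q : ℝ × ℝ) (b : EB5) (x : X5 (Fib U A)) (hb : b ∈ B5) :
    g1 p rr (q, β5 γ.1 b, pi5 ρ γ x) = pi5 ρ γ (g1 p rr (q, b, x)) := by
  unfold g1
  rw [← rho_pi5]
  congr 1
  funext j
  simp only [pi5_apply, h.ret.eq γ.1 b hb, h.dyn.ep _ γ.1 b hb]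

theorem equi_f1 (γ : G3) (b : EB5) (x : X5 (Fib U A)) (hb : b ∈ B5) :
    (fun i => f₁ (β5 γ.1 b, rr (β5 γ.1 b, pi5 ρ γ x i))) =
      pi5 ρ γ fun i => f₁ (b, rr (b, x i)) := by
  funext j
  simp only [pi5_apply, h.ret.eq γ.1 b hb, h.dyn.e1 γ.1 b hb]

theorem equi2 (γ : G3) (q : ℝ × ℝ) (b : EB5) (x : X5 (Fib U A)) (hb : b ∈ B5) :
    g2 f₁ f₂ rr (q, β5 γ.1 b, pi5 ρ γ x) = pi5 ρ γ (g2 f₁ f₂ rr (q, b, x)) := by
  unfold g2
  rw [← rho_pi5]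
  congr 1
  funext j
  simp only [h.equi_f1 γ b x hb, rho_pi5]
  simp only [pi5_apply, h.dyn.e2 γ.1 b hb]

theorem not_exit {s k : ℝ} {w q : X5 (Fib U A)} (hk : 0 ≤ k) (hd : k * ‖perp w‖ ≤ 1)
    (hz : w + k • perp w = rho s q) (hw : ∀ j, ‖w j‖ ≤ R₀) (i : ZMod 5) : ‖neg J (q i)‖ < K := by
  linarith [neg_lt h.inv hk hd hz hw i, h.kge]

theorem snd_lt {w : Fib U A} (hw : ‖w‖ ≤ R₀ + 1) : ‖w.snd‖ < K := by
  linarith [WithLp.norm_snd_le _ w, h.kge, h.r0]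

variable [FiniteDimensional ℝ U] [FiniteDimensional ℝ A]

theorem isPF1 {d : ℝ} (hd : d ∈ Ioc (0 : ℝ) 1) :
    IsPF (pi5 ρ) (fdom univ) (ful d (g1 p rr)) fun _ => 0 :=
  isPF_ful ρ d hd.1 univ univ _ h.cont1 h.equi1 (fun _ _ _ => univ_mem) (fun _ _ _ _ _ _ => trivial)
    subset_rfl (by
      rw [univ_inter]
      exact isClosed_B5.preimage continuous_snd.fst) fun _ _ =>
    ⟨R₀, fun w _ hb _ k hk hk1 hz => ⟨trivial, (pi_norm_le_iff_of_nonneg h.r0).2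
      (h.bound1 (cl01_mem _) hb hk.le (hk1.trans_le hd.2) hz)⟩⟩

omit [FiniteDimensional ℝ U] [FiniteDimensional ℝ A] in
theorem isClosed_O2c : IsClosed (O2c f₁ rr c (R₀ + 1) e₁ ∩ {w | w.2.1 ∈ B5}) := by
  have hS : IsClosed {w : (ℝ × ℝ) × EB5 × X5 (Fib U A) | w.2.1 ∈ B5} :=
    isClosed_B5.preimage continuous_snd.fst
  have h1 : ContinuousOn (fun (w : (ℝ × ℝ) × EB5 × X5 (Fib U A)) (i : ZMod 5) =>
      (‖w.2.2 i‖, ‖f₁ (w.2.1, rr (w.2.1, w.2.2 i)) - c w.2.1‖)) {w | w.2.1 ∈ B5} :=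
    continuousOn_pi.2 fun i => ContinuousOn.prodMk (by fun_prop)
      ((h.cont_f1 i).sub (h.dyn.cc.comp continuous_snd.fst).continuousOn).norm
  have h2 := h1.preimage_isClosed_of_isClosed hS
    (isClosed_set_pi (i := univ) (s := fun _ => Iic (R₀ + 1) ×ˢ Iic e₁)
      fun _ _ => isClosed_Iic.prod isClosed_Iic)
  convert h2 using 1
  ext w
  exact ⟨fun H => ⟨H.2, fun i _ => H.1 i⟩, fun H => ⟨fun i => H.2 i trivial, H.1⟩⟩

theorem isPF2 {d : ℝ} (hd : d ∈ Ioc (0 : ℝ) 1) :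
    IsPF (pi5 ρ) (fdom (O2 f₁ rr c (R₀ + 1) e₁)) (ful d (g2 f₁ f₂ rr)) fun _ => 0 := by
  refine isPF_ful ρ d hd.1 _ (O2c f₁ rr c (R₀ + 1) e₁) _ h.cont2 h.equi2 (fun w hw hb => ?_)
    (fun γ q b x hb hw i => ?_) (fun w hw i => ⟨(hw i).1.le, (hw i).2.le⟩) h.isClosed_O2c
    fun _ _ => ⟨R₀, fun w hw hb _ k hk hk1 hz => ?_⟩
  · refine eventually_all.2 fun i => Eventually.and ?_ ?_
    · have : Continuous fun v : (ℝ × ℝ) × EB5 × X5 (Fib U A) => ‖v.2.2 i‖ := by fun_prop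
      exact (this.continuousWithinAt).eventually (gt_mem_nhds (hw i).1)
    · exact (((h.cont_f1 i).sub (h.dyn.cc.comp continuous_snd.fst).continuousOn).norm w
        hb).eventually (gt_mem_nhds (hw i).2)
  · have h1 := congrFun (h.equi_f1 γ b x hb) i
    simp only at h1 ⊢
    rw [h1, h.dyn.ec γ.1 b hb, pi5_apply, pi5_apply, ← map_sub, LinearIsometryEquiv.norm_map,
      LinearIsometryEquiv.norm_map]
    exact hw _
  · have hv := fun i => (hw i).2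
    have hk2 := hk1.trans_le hd.2
    have h1 := h.bound2 (s := w.1.1) (s' := w.1.2) hb hv hk.le hk2 hz
    refine ⟨fun i => ⟨by linarith [h1 i], ?_⟩, (pi_norm_le_iff_of_nonneg h.r0).2 h1⟩
    by_contra hlt
    obtain ⟨j, hj⟩ := h.dyn.exit5 w.2.1 hb (fun i => rr (w.2.1, w.2.2 i)) _
      (fun i => h.ret.mem _ hb _)
      (fun i => by rw [h.ret.snd _ hb]; exact (h.snd_lt (hw i).1).le) hv ⟨i, not_lt.1 hlt⟩
      (mix_rho w.1.2 _)
    rw [← rho_center] at hj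
    exact absurd (h.not_exit hk.le hk2 hz h1 j) (not_lt.2 hj)

omit [FiniteDimensional ℝ U] [FiniteDimensional ℝ A] in
theorem near_mem {P : Type} [TopologicalSpace P] {C : Set (P × EB5 × X5 (Fib U A))}
    {x : P × EB5 × X5 (Fib U A)} (hx : ∀ i, x.2.2 i = c x.2.1) :
    {y : P × EB5 × X5 (Fib U A) | ∀ i, ‖y.2.2 i - c y.2.1‖ < min δ e₁} ∈ 𝓝[C] x := by
  refine mem_nhdsWithin_of_mem_nhds (eventually_all.2 fun i => ?_)
  have hc := h.dyn.cc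
  have : Continuous fun y : P × EB5 × X5 (Fib U A) => ‖y.2.2 i - c y.2.1‖ := by fun_prop
  refine this.continuousAt.eventually (gt_mem_nhds ?_)
  simp [hx i, h.dyn.dpos, h.dyn.e1pos]

omit [FiniteDimensional ℝ U] [FiniteDimensional ℝ A] in
theorem rr_near {b : EB5} (hb : b ∈ B5) {w : Fib U A} (hw : ‖w - c b‖ < min δ e₁) :
    rr (b, w) = c b + (w - c b) := by
  have := h.dyn.ball b hb (w - c b) (by linarith [min_le_right δ e₁, h.dyn.e1pos])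
  rw [add_sub_cancel] at this ⊢
  exact h.ret.fix b hb w this

theorem adm1 {s : ℝ} (hs : s = 1 ∨ s = 2) : ∃ d₀ > 0, ∀ d ∈ Ioc (0 : ℝ) 1, d ≤ d₀ →
    ∀ τ ∈ Icc (0 : ℝ) 1, Adm (fdom univ) (ful d (g1 p rr)) (fun _ => 0) (τ, s) := by
  obtain ⟨k, hk⟩ := rho_int (W := Fib U A) hs
  have hC : IsCompact ((Icc (0 : ℝ) 1 ×ˢ ({s} : Set ℝ)) ×ˢ B5 ×ˢ closedBall (0 : X5 (Fib U A)) R₀) :=
    (isCompact_Icc.prod isCompact_singleton).prod (isCompact_B5.prod (isCompact_closedBall _ _))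
  obtain ⟨d₀, hd₀, H⟩ := small_d _ hC (fun w => w.2.2 - g1 p rr w)
    (continuous_snd.snd.continuousOn.sub (h.cont1.mono fun w hw => hw.2.1)) _
    fun x hx h0 => h.near_mem (by
      obtain ⟨⟨τ, s'⟩, b, z⟩ := x
      obtain ⟨⟨hτ, rfl⟩, hb, hz⟩ := hx
      have h1 : ∀ i, z i = p (τ, b, rr (b, z (i - k))) := fun i => by
        have := congrFun (sub_eq_zero.1 h0) i
        simpa only [g1, hk, cl01_eq hτ] using this
      have h2 : ∀ i, φ (z i).fst ≤ 0 := fun i => by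
        rw [h1 i]
        exact ((h.dyn.bp τ hτ b hb).into _ (h.ret.mem b hb _)).trans (neg_nonpos.2 h.e0)
      refine h.dyn.per τ hτ b hb k z (fun i => ?_) h2 fun i => h.snd_lt ?_
      · rw [h1 i, h.ret.fix b hb _ (h2 _)]
      · linarith [norm_le_pi_norm z i, mem_closedBall_zero_iff.1 hz])
  refine ⟨d₀, hd₀, fun d hd hdd τ hτ b z hz h0 _ => ?_⟩
  obtain ⟨κ, hκ, hκ1, hκ2⟩ := (ful_eq_zero hd.1 hz.2.2).1 h0
  have hb : b ∈ B5 := hz.1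
  have h1 := h.bound1 (cl01_mem _) hb hκ.le (hκ1.trans_le hd.2) hκ2
  have h2 := H ((τ, s), b, z) ⟨⟨hτ, rfl⟩, hb,
    mem_closedBall_zero_iff.2 ((pi_norm_le_iff_of_nonneg h.r0).2 h1)⟩ (by
      rw [← hκ2, sub_add_cancel_left, norm_neg, norm_smul, Real.norm_of_nonneg hκ.le, hκ1]
      exact hdd)
  refine hz.2.2 (adm_lin (s := s) (by rcases hs with rfl | rfl <;> norm_num) (c b)
    (h.dyn.symp τ hτ b hb) (h.dyn.posp τ hτ b hb) hκ (hκ2.trans ?_))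
  simp only [g1, cl01_eq hτ]
  congr 1
  funext j
  rw [h.rr_near hb (h2 j), h.dyn.linp τ hτ b hb _ ((h2 j).le.trans (min_le_left _ _))]

theorem adm2 : ∃ d₀ > 0, ∀ d ∈ Ioc (0 : ℝ) 1, d ≤ d₀ → ∀ s ∈ Icc (-1 : ℝ) 0,
    Adm (fdom (O2 f₁ rr c (R₀ + 1) e₁)) (ful d (g2 f₁ f₂ rr)) (fun _ => 0) (2, s) := by
  obtain ⟨k, hk⟩ := rho_int (W := Fib U A) (s := 2) (Or.inr rfl)
  have hC := (((isCompact_singleton (x := (2 : ℝ))).prod (isCompact_Icc (a := (-1 : ℝ)) (b := 0))).prod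
    (isCompact_B5.prod (isCompact_closedBall (0 : X5 (Fib U A)) (R₀ + 1)))).inter_right
    h.isClosed_O2c
  obtain ⟨d₀, hd₀, H⟩ := small_d _ hC (fun w => w.2.2 - g2 f₁ f₂ rr w)
    (continuous_snd.snd.continuousOn.sub (h.cont2.mono fun w hw => hw.2.2)) _
    fun x hx h0 => h.near_mem (by
      obtain ⟨⟨s, s'⟩, b, z⟩ := x
      obtain ⟨⟨⟨rfl, -⟩, hb, -⟩, hz, -⟩ := hx
      have hv := fun i => (hz i).2
      have h1 : ∀ i, z i = f₂ (b, rho s' (fun i => f₁ (b, rr (b, z i))) (i - k)) := fun i => by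
        have := congrFun (sub_eq_zero.1 h0) i
        simpa only [g2, hk] using this
      have h2 : ∀ i, φ (z i).fst ≤ 0 := fun i => by
        rw [h1 i]
        exact ((h.dyn.b2 b hb).into _ (h.mid_mem hb hv s' _)).trans (neg_nonpos.2 h.e0)
      have h3 : ∀ i, rr (b, z i) = z i := fun i => h.ret.fix b hb _ (h2 i)
      simp only [h3] at hv h1
      refine h.dyn.per5 b hb k z _ h2 (fun i => h.snd_lt (hz i).1) hv (mix_rho s' _) fun i => ?_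
      rw [← rho_center]
      exact h1 i)
  refine ⟨d₀, hd₀, fun d hd hdd s hs b z hz h0 _ => ?_⟩
  obtain ⟨κ, hκ, hκ1, hκ2⟩ := (ful_eq_zero hd.1 hz.2.2).1 h0
  have hb : b ∈ B5 := hz.1
  have h2 := H ((2, s), b, z) ⟨⟨⟨rfl, hs⟩, hb, mem_closedBall_zero_iff.2
    ((pi_norm_le_iff_of_nonneg (by linarith [h.r0])).2 fun i => (hz.2.1 i).1.le)⟩,
    fun i => ⟨(hz.2.1 i).1.le, (hz.2.1 i).2.le⟩, hb⟩ (by
      rw [← hκ2, sub_add_cancel_left, norm_neg, norm_smul, Real.norm_of_nonneg hκ.le, hκ1]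
      exact hdd)
  refine hz.2.2 (adm_lin (s := 2 + s) ⟨by linarith [hs.1], by linarith [hs.2]⟩ (c b)
    (h.dyn.symp 1 Sys.one_mem b hb) (h.dyn.posp 1 Sys.one_mem b hb) hκ (hκ2.trans ?_))
  have h3 := fun j => h.dyn.lin1 b hb _ ((h2 j).le.trans (min_le_left _ _))
  have h4 : (fun i => f₁ (b, rr (b, z i))) = fun i => c b + B₁ b (z i - c b) := by
    funext i
    rw [h.rr_near hb (h2 i), (h3 i).1]
  simp only [g2, h4]
  rw [← rho_add, rho_add_const, rho_add_const s]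
  congr 1
  funext j
  rw [h.dyn.lin2 b hb _ ((mix_rho s _).norm_le ((norm_nonneg _).trans (h3 j).2)
    (fun i => (h3 i).2) j), ← congrFun (rho_map s (B₂ b) _) j]
  simp only [h.dyn.comp]

theorem zero {n : NFun} (hn : IsN n) : ∃ d₀ > 0, ∀ d ∈ Ioo (0 : ℝ) d₀,
    aInv n ρ d (fun y => rr y - t • X (y.1, rr y)) = 0 := by
  obtain ⟨d₁, hd₁, a1⟩ := h.adm1 (Or.inl rfl)
  obtain ⟨d₂, hd₂, a2⟩ := h.adm1 (Or.inr rfl)
  obtain ⟨d₃, hd₃, a3⟩ := h.adm2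
  refine ⟨min 1 (min d₁ (min d₂ d₃)), by positivity, fun d hd => ?_⟩
  have hd' := hd.2.le
  simp only [le_min_iff] at hd'
  have hd1 : d ∈ Ioc (0 : ℝ) 1 := ⟨hd.1, hd'.1⟩
  have a1 := a1 d hd1 hd'.2.1
  have a2 := a2 d hd1 hd'.2.2.1
  have a3 := a3 d hd1 hd'.2.2.2
  have F1 := h.isPF1 hd1
  have F2 := h.isPF2 hd1
  have e0 : aInv n ρ d (fun y => rr y - t • X (y.1, rr y)) =
      pcnt n (pi5 ρ) (fdom univ) (ful d (g1 p rr)) (fun _ => 0) fun τ => (0, 1 + τ) := by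
    unfold aInv pcnt
    congr 1
    funext w
    simp only [ful, rf, g1, cl01_eq (left_mem_Icc.2 zero_le_one), h.dyn.p0]
  have e1 := pcnt_hom hn F1 (H := fun q => (q.1, 1 + q.2)) (by fun_prop)
    (fun s hs => by simpa using a1 s hs) fun s hs => by
      have := a2 s hs
      norm_num at this ⊢
      exact this
  have eg : ∀ s y, g2 f₁ f₂ rr ((s, 0), y) = g1 p rr ((1, s), y) := fun s y => by
    simp only [g1, g2, rho_zero, cl01_eq Sys.one_mem, h.dyn.p1]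
  have ef : ∀ s y, ful d (g2 f₁ f₂ rr) ((s, 0), y) = ful d (g1 p rr) ((1, s), y) := fun s y => by
    simp only [ful, eg]
  have es : ∀ τ : ℝ, seg ((1, 0) : ℝ × ℝ) (2, 0) τ = (1 + τ, 0) := fun τ => by
    simp [seg]
    norm_num
  have aa : ∀ s, Adm (fdom univ) (ful d (g1 p rr)) (fun _ => 0) (1, s) →
      Adm (fdom (O2 f₁ rr c (R₀ + 1) e₁)) (ful d (g2 f₁ f₂ rr)) (fun _ => 0) (s, 0) :=
    fun s ha b z hz h0 => ha b z ⟨hz.1, trivial, hz.2.2⟩ (by rw [← ef]; exact h0)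
  have b1 : Adm (fdom univ) (ful d (g1 p rr)) (fun _ => 0) (1, 1 + 0) := by
    simpa using a1 1 Sys.one_mem
  have b2 : Adm (fdom univ) (ful d (g1 p rr)) (fun _ => 0) (1, 1 + 1) := by
    rw [one_add_one_eq_two]
    exact a2 1 Sys.one_mem
  have e2 := pcnt_exc hn F1 F2 (γ := fun τ => (1, 1 + τ)) (γ' := seg (1, 0) (2, 0))
    (by fun_prop) (seg_cont _ _) b1 b2 (by rw [es]; exact aa _ b1) (by rw [es]; exact aa _ b2)
    (fun τ _ y hy => by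
      rw [es] at hy ⊢
      exact ⟨⟨hy.1, trivial, hy.2.2⟩, ef _ _, rfl⟩)
    fun τ _ y hy h0 _ => by
      obtain ⟨κ, hκ, hκ1, hκ2⟩ := (ful_eq_zero hd.1 hy.2.2).1 h0
      have hb : y.1 ∈ B5 := hy.1
      have hk2 := hκ1.trans_le hd1.2
      have h1 := h.bound1 (cl01_mem _) hb hκ.le hk2 hκ2
      refine ⟨hb, fun i => ⟨by linarith [h1 i], ?_⟩, hy.2.2⟩
      by_contra hlt
      have h2 := h.dyn.exit0 y.1 hb (rr (y.1, y.2 i)) (h.ret.mem _ hb _)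
        (by rw [h.ret.snd _ hb]; exact (h.snd_lt (by linarith [h1 i])).le) (not_lt.1 hlt)
      have h3 := h.not_exit hκ.le hk2 hκ2 h1 i
      rw [cl01_eq Sys.one_mem, h.dyn.p1] at h3
      exact absurd h3 (not_lt.2 h2)
  rw [e0, e1, ← e2]
  refine plane_zero hn F2 (refl5 _) (refl5_pi5 ρ) (fun q y => ⟨Iff.rfl, ?_⟩)
    (fun q b z => ⟨?_, ?_⟩) a3
  · have e : g2 f₁ f₂ rr (q + (1, -1), y) = g2 f₁ f₂ rr (q, y) := by
      simp only [g2, Prod.fst_add, Prod.snd_add]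
      rw [← rho_add q.1 1, rho_one]
      congr 1
      funext j
      have := congrFun (rho_add 1 (q.2 + -1) fun i => f₁ (y.1, rr (y.1, y.2 i))) j
      rw [rho_one, show 1 + (q.2 + -1) = q.2 by ring] at this
      rw [← this]
      rfl
    simp only [ful, e]
  · have e : perp (refl5 _ z) ≠ 0 ↔ perp z ≠ 0 := by
      rw [perp_refl5, ← norm_ne_zero_iff, norm_refl5, norm_ne_zero_iff]
    refine and_congr Iff.rfl (and_congr ?_ e)
    exact ⟨fun H i => by simpa [refl5_apply] using H (-i), fun H i => H (-i)⟩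
  · have e : g2 f₁ f₂ rr (q, b, refl5 _ z) = refl5 _ (g2 f₁ f₂ rr (-q, b, z)) := by
      simp only [g2, Prod.fst_neg, Prod.snd_neg]
      rw [← rho_refl5]
      congr 1
      funext j
      exact congrArg (fun x => f₂ (b, x))
        (congrFun (rho_refl5 q.2 fun i => f₁ (b, rr (b, z i))) j)
    simp only [ful, e, perp_refl5, norm_refl5, map_add, map_sub, map_smul]

end Ctx

/-- Theorem A for the step along the modified field. -/
theorem core [FiniteDimensional ℝ U] [FiniteDimensional ℝ A] {n : NFun} (hn : IsN n)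
    {ρ : G5 →* (Fib U A ≃ₗᵢ[ℝ] Fib U A)} {φ : U → ℝ} {J : A →L[ℝ] A} {R L C e₀ c₀ : ℝ}
    {F : EB5 × Fib U A → ℝ} {X : EB5 × Fib U A → Fib U A}
    (h : IsRD β5 B5 ρ φ J R L C e₀ c₀ F X) :
    ∃ (X' : EB5 × Fib U A → Fib U A) (L' C' : ℝ), IsFld β5 B5 ρ φ J R L' C' e₀ c₀ X' ∧
      ∃ t₀ > 0, ∀ t ∈ Ioc (0 : ℝ) t₀, ∀ rr, IsRR ρ φ rr → ∃ d₀ > 0, ∀ d ∈ Ioo (0 : ℝ) d₀,
        aInv n ρ d (fun y => rr y - t • X' (y.1, rr y)) = 0 := by
  obtain ⟨X', L', C', hX', t₀, ht₀, H⟩ := stDyn G5 EB5 U A β5 B5 ρ φ J R L C e₀ c₀ F X h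
  refine ⟨X', L', C', hX', t₀, ht₀, fun t ht rr hr => ?_⟩
  obtain ⟨e, he, θ, C₁, hθ0, hθ1, H⟩ := H t ht
  obtain ⟨R₀, hR₀, hb⟩ := exists_bound (U := U) (A := A) R θ (5 * ((C₁ + 3) ^ 2 + C₁)) hθ0 hθ1
  obtain ⟨c, e₁, δ, δ₂, p, f₁, f₂, Bp, B₁, B₂, hd⟩ := H (max C₁ (3 * (R₀ + 1 + 1))) (le_max_left _ _)
  exact Ctx.zero ⟨hd, h.inv, h.dm, he.le, hθ0, hθ1.le, hr, hR₀, le_max_right _ _, hb J h.inv⟩ hn

end Vale.Agent.P220Z.Dyn
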