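import Mathlib

/-!
# P220, dynamics: the critical section, Taylor estimates, descent
-/

open Set Filter Topology Metric
open scoped RealInnerProductSpace

namespace Vale.Agent.P220Z.Dyn

variable {EB : Type} [NormedAddCommGroup EB] [NormedSpace ℝ EB]
  {W : Type} [NormedAddCommGroup W] [InnerProductSpace ℝ W] [FiniteDimensional ℝ W]

omit [NormedSpace ℝ EB] in
/-- a section with a compact graph over a compact set extends to a continuous map -/
theorem exists_section {B : Set EB} (hB : IsCompact B) {S : Set (EB × W)} (hS : IsCompact S)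
    (hu : ∀ b ∈ B, ∃! w, (b, w) ∈ S) : ∃ c : EB → W, Continuous c ∧ ∀ b ∈ B, (b, c b) ∈ S := by
  classical
  have h1 : ∀ b, ∃ w, b ∈ B → (b, w) ∈ S := fun b => by
    by_cases hb : b ∈ B
    · obtain ⟨w, hw, -⟩ := hu b hb
      exact ⟨w, fun _ => hw⟩
    · exact ⟨0, fun h => absurd h hb⟩
  choose c0 hc0 using h1
  have hcont : ContinuousOn c0 B := by
    rw [continuousOn_iff_isClosed]
    intro t ht
    refine ⟨Prod.fst '' (S ∩ Prod.snd ⁻¹' t), ?_, ?_⟩
    · exact ((hS.inter_right (ht.preimage continuous_snd)).image continuous_fst).isClosed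
    · ext b
      constructor
      · rintro ⟨h1, h2⟩
        exact ⟨⟨(b, c0 b), ⟨hc0 b h2, h1⟩, rfl⟩, h2⟩
      · rintro ⟨⟨⟨b', w⟩, ⟨h1, h2⟩, rfl⟩, h3⟩
        refine ⟨?_, h3⟩
        have : w = c0 b' := (hu b' h3).unique h1 (hc0 b' h3)
        show c0 b' ∈ t
        rw [← this]
        exact h2
  haveI : TietzeExtension W := TietzeExtension.of_tvs ℝ
  obtain ⟨g, hg⟩ := ContinuousMap.exists_restrict_eq hB.isClosed
    (⟨B.restrict c0, hcont.restrict⟩ : C(B, W))
  refine ⟨g, g.continuous, fun b hb => ?_⟩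
  have : g b = c0 b := by
    exact congrArg (fun f : C(B, W) => f ⟨b, hb⟩) hg
  rw [this]
  exact hc0 b hb

/-- the derivative of `X` along the fibre -/
noncomputable def dX (X : EB × W → W) (b : EB) (w : W) : W →L[ℝ] W :=
  fderiv ℝ (fun y => X (b, y)) w

omit [FiniteDimensional ℝ W] in
theorem continuous_dX {X : EB × W → W} (hX : ContDiff ℝ 1 X) :
    Continuous fun z : EB × W => dX X z.1 z.2 := by
  have h : ContDiff ℝ 0 fun z : EB × W => fderiv ℝ (fun y => X (z.1, y)) z.2 := by
    refine ContDiff.fderiv (m := 1) (f := fun (z : EB × W) (y : W) => X (z.1, y))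
      (g := fun z => z.2) ?_ contDiff_snd (by norm_num)
    exact hX.comp (contDiff_fst.fst.prodMk contDiff_snd)
  exact h.continuous

omit [FiniteDimensional ℝ W] in
theorem hasFDerivAt_dX {X : EB × W → W} (hX : ContDiff ℝ 1 X) (b : EB) (w : W) :
    HasFDerivAt (fun y => X (b, y)) (dX X b w) w := by
  have : ContDiff ℝ 1 fun y => X (b, y) := hX.comp (contDiff_const.prodMk contDiff_id)
  exact (this.differentiable (by norm_num) w).hasFDerivAt

omit [FiniteDimensional ℝ W] in
/-- first order Taylor estimate along the section, uniform over a compact base -/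
theorem taylor_field {B : Set EB} (hB : IsCompact B) {X : EB × W → W} (hX : ContDiff ℝ 1 X)
    {c : EB → W} (hc : Continuous c) (h0 : ∀ b ∈ B, X (b, c b) = 0) {ω : ℝ} (hω : 0 < ω) :
    ∃ ε > 0, ∀ b ∈ B, ∀ v, ‖v‖ ≤ ε → ‖X (b, c b + v) - dX X b (c b) v‖ ≤ ω * ‖v‖ := by
  have hcont : Continuous fun z : W × EB => ‖dX X z.2 (c z.2 + z.1) - dX X z.2 (c z.2)‖ := by
    have h1 := (continuous_dX hX).comp
      (continuous_snd.prodMk ((hc.comp continuous_snd).add continuous_fst) :
        Continuous fun z : W × EB => (z.2, c z.2 + z.1))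
    have h2 := (continuous_dX hX).comp
      (continuous_snd.prodMk (hc.comp continuous_snd) : Continuous fun z : W × EB => (z.2, c z.2))
    exact (h1.sub h2).norm
  have hev : ∀ᶠ v in 𝓝 (0 : W), ∀ b ∈ B, ‖dX X b (c b + v) - dX X b (c b)‖ < ω := by
    refine hB.eventually_forall_of_forall_eventually fun b _ => ?_
    refine hcont.continuousAt.eventually_lt continuousAt_const ?_
    simpa using hω
  obtain ⟨ε, hε, hball⟩ := Metric.nhds_basis_closedBall.eventually_iff.1 hev
  refine ⟨ε, hε, fun b hb v hv => ?_⟩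
  have key := Convex.norm_image_sub_le_of_norm_hasFDerivWithin_le'
    (f := fun y => X (b, y)) (f' := fun y => dX X b y) (φ := dX X b (c b)) (C := ω)
    (s := closedBall (c b) ε) (x := c b) (y := c b + v)
    (fun y _ => (hasFDerivAt_dX hX b y).hasFDerivWithinAt)
    (fun y hy => by
      have := hball (x := y - c b) (by simpa [dist_eq_norm] using hy) b hb
      simpa using this.le)
    (convex_closedBall _ _) (mem_closedBall_self hε.le) (by simpa [dist_eq_norm] using hv)
  simpa [h0 b hb] using key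

omit [NormedSpace ℝ EB] in
/-- a uniform lower bound for a continuous family of injective linear maps -/
theorem lower_bound {B : Set EB} (hB : IsCompact B) {H : EB → W →L[ℝ] W} (hH : Continuous H)
    (hi : ∀ b ∈ B, Function.Injective (H b)) : ∃ κ > 0, ∀ b ∈ B, ∀ v, κ * ‖v‖ ≤ ‖H b v‖ := by
  have hK : IsCompact (B ×ˢ sphere (0 : W) 1) := hB.prod (isCompact_sphere _ _)
  have hcont : Continuous fun z : EB × W => ‖H z.1 z.2‖ :=
    ((hH.comp continuous_fst).clm_apply continuous_snd).norm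
  obtain ⟨κ, hκ, hle⟩ := hK.exists_forall_le' hcont.continuousOn (a := 0) (fun z hz => by
    refine norm_pos_iff.2 fun h => ?_
    have : z.2 = 0 := hi z.1 hz.1 (by simpa using h)
    have h2 := hz.2
    simp [this] at h2)
  refine ⟨κ, hκ, fun b hb v => ?_⟩
  rcases eq_or_ne v 0 with rfl | hv
  · simp
  have hn : 0 < ‖v‖ := norm_pos_iff.2 hv
  have := hle (b, ‖v‖⁻¹ • v) ⟨hb, by simp [norm_smul, hn.ne']⟩
  simp only [map_smul, norm_smul, norm_inv, norm_norm] at this
  rw [inv_mul_eq_div, le_div_iff₀ hn] at this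
  exact this

omit [FiniteDimensional ℝ W] in
/-- second order estimate from a first order estimate of the gradient -/
theorem taylor_fun {f : W → ℝ} {X : W → W} (hf : ∀ w, HasFDerivAt f (innerSL ℝ (X w)) w)
    {H : W →L[ℝ] W} (hs : ∀ u v, ⟪H u, v⟫ = ⟪u, H v⟫) {c : W} {ε ω : ℝ} (hω : 0 ≤ ω)
    (hT : ∀ v, ‖v‖ ≤ ε → ‖X (c + v) - H v‖ ≤ ω * ‖v‖) {v : W} (hv : ‖v‖ ≤ ε) :
    |f (c + v) - f c - ⟪H v, v⟫ / 2| ≤ ω * ‖v‖ ^ 2 := by
  have hd : ∀ y, HasFDerivAt (fun y => f (c + y) - ⟪H y, y⟫ / 2)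
      (innerSL ℝ (X (c + y) - H y)) y := by
    intro y
    have h1 : HasFDerivAt (fun y => f (c + y)) (innerSL ℝ (X (c + y))) y :=
      ((hf (c + y)).comp y ((hasFDerivAt_id y).const_add c)).congr_fderiv
        (ContinuousLinearMap.comp_id _)
    have h2 := (H.hasFDerivAt.inner ℝ (hasFDerivAt_id y)).const_mul (1 / 2 : ℝ)
    have h3 := h1.sub h2
    have e : (fun y => f (c + y) - ⟪H y, y⟫ / 2) =
        (fun y => f (c + y)) - fun y => 1 / 2 * ⟪H y, id y⟫ := by
      ext y
      simp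
      ring
    rw [e]
    refine h3.congr_fderiv ?_
    ext u
    simp [hs u y, real_inner_comm]
    ring
  have key := Convex.norm_image_sub_le_of_norm_hasFDerivWithin_le
    (f := fun y => f (c + y) - ⟪H y, y⟫ / 2) (f' := fun y => innerSL ℝ (X (c + y) - H y))
    (C := ω * ‖v‖) (s := closedBall (0 : W) ‖v‖) (x := 0) (y := v)
    (fun y _ => (hd y).hasFDerivWithinAt)
    (fun y hy => by
      have hy' : ‖y‖ ≤ ‖v‖ := by simpa using hy
      rw [innerSL_apply_norm]
      exact (hT y (hy'.trans hv)).trans (mul_le_mul_of_nonneg_left hy' hω))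
    (convex_closedBall _ _) (mem_closedBall_self (norm_nonneg _)) (by simp)
  simp only [add_zero, map_zero, inner_zero_left, zero_div, sub_zero, Real.norm_eq_abs] at key
  have e : f (c + v) - f c - ⟪H v, v⟫ / 2 = f (c + v) - ⟪H v, v⟫ / 2 - f c := by ring
  rw [e]
  nlinarith [key]

omit [FiniteDimensional ℝ W] in
/-- first order estimate for a function whose gradient is Lipschitz on a convex set -/
theorem descent {f : W → ℝ} {X : W → W} (hf : ∀ w, HasFDerivAt f (innerSL ℝ (X w)) w)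
    {S : Set W} (hS : Convex ℝ S) {L : ℝ} (hL : 0 ≤ L)
    (hl : ∀ w ∈ S, ∀ w' ∈ S, ‖X w - X w'‖ ≤ L * ‖w - w'‖) {w h : W} (hw : w ∈ S)
    (hh : w + h ∈ S) : f (w + h) ≤ f w + ⟪X w, h⟫ + L * ‖h‖ ^ 2 := by
  have key := Convex.norm_image_sub_le_of_norm_hasFDerivWithin_le'
    (f := f) (f' := fun y => innerSL ℝ (X y)) (φ := innerSL ℝ (X w)) (C := L * ‖h‖)
    (s := S ∩ closedBall w ‖h‖) (x := w) (y := w + h)
    (fun y _ => (hf y).hasFDerivWithinAt)
    (fun y hy => by
      rw [← map_sub, innerSL_apply_norm]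
      refine (hl y hy.1 w hw).trans (mul_le_mul_of_nonneg_left ?_ hL)
      simpa [dist_eq_norm] using hy.2)
    (hS.inter (convex_closedBall _ _)) ⟨hw, mem_closedBall_self (norm_nonneg _)⟩
    ⟨hh, by simp [dist_eq_norm]⟩
  simp only [add_sub_cancel_left, innerSL_apply_apply, Real.norm_eq_abs] at key
  have := (abs_le.1 key).2
  nlinarith

omit [FiniteDimensional ℝ W] in
/-- the derivative of a gradient is symmetric -/
theorem symm_of_grad {f : W → ℝ} {X : W → W} (hf : ∀ w, HasFDerivAt f (innerSL ℝ (X w)) w)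
    {H : W →L[ℝ] W} {c : W} (hH : HasFDerivAt X H c) (u v : W) : ⟪H u, v⟫ = ⟪u, H v⟫ := by
  have h2 : HasFDerivAt (fun w => innerSL ℝ (X w)) ((innerSL ℝ : W →L[ℝ] W →L[ℝ] ℝ).comp H) c :=
    (innerSL ℝ : W →L[ℝ] W →L[ℝ] ℝ).hasFDerivAt.comp c hH
  have := second_derivative_symmetric hf h2 u v
  simp only [ContinuousLinearMap.comp_apply, innerSL_apply_apply] at this
  rw [this, real_inner_comm]

end Vale.Agent.P220Z.Dyn
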