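import Vale.Agent.P220Z.Dyn.Iter

/-!
# P220, dynamics: rigid data and the statements

The fibre is `W = U × A`, the block is `{w | φ w.fst ≤ 0}`, `J` is a symmetric involution of `A`.
-/

open Set
open scoped RealInnerProductSpace

namespace Vale.Agent.P220Z.Dyn

section

variable {G : Type} [Group G]
  {EB : Type} [NormedAddCommGroup EB] [InnerProductSpace ℝ EB]
  {U : Type} [NormedAddCommGroup U] [InnerProductSpace ℝ U]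
  {A : Type} [NormedAddCommGroup A] [InnerProductSpace ℝ A]

/-- the fibre -/
abbrev Fib (U A : Type) : Type := WithLp 2 (U × A)

/-- the component in the eigenspace of `J` for the eigenvalue `-1` -/
noncomputable def neg (J : A →L[ℝ] A) (w : Fib U A) : A := (1 / 2 : ℝ) • (w.snd - J w.snd)

/-- the component in the eigenspace of `J` for the eigenvalue `1` -/
noncomputable def pos (J : A →L[ℝ] A) (w : Fib U A) : A := (1 / 2 : ℝ) • (w.snd + J w.snd)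

/-- a symmetric involution -/
structure IsInv (J : A →L[ℝ] A) : Prop where
  symm : ∀ u v, ⟪J u, v⟫ = ⟪u, J v⟫
  sq : ∀ u, J (J u) = u

/-- the domain `{φ ≤ 0}` lies in the ball of radius `R - 1` -/
structure IsDm (φ : U → ℝ) (R : ℝ) : Prop where
  smooth : ContDiff ℝ 2 φ
  bdd : ∀ x, φ x ≤ 0 → ‖x‖ + 1 ≤ R

/-- An admissible field (R1, R2, R3). -/
structure IsFld (β : G →* (EB ≃ₗᵢ[ℝ] EB)) (B : Set EB) (ρ : G →* (Fib U A ≃ₗᵢ[ℝ] Fib U A))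
    (φ : U → ℝ) (J : A →L[ℝ] A) (R L C e₀ c₀ : ℝ) (X : EB × Fib U A → Fib U A) : Prop where
  cont : Continuous X
  equi : ∀ g, ∀ b ∈ B, ∀ w, X (β g b, ρ g w) = ρ g (X (b, w))
  lip : ∀ b ∈ B, ∀ w w', ‖w.fst‖ ≤ R → ‖w'.fst‖ ≤ R → ‖X (b, w) - X (b, w')‖ ≤ L * ‖w - w'‖
  bdd : ∀ b ∈ B, ∀ w, ‖w.fst‖ ≤ R → ‖(X (b, w)).fst‖ ≤ C ∧ ‖(X (b, w)).snd - J w.snd‖ ≤ C
  face : ∀ b ∈ B, ∀ w, -e₀ ≤ φ w.fst → φ w.fst ≤ 0 → c₀ ≤ fderiv ℝ φ w.fst (X (b, w)).fst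

/-- Rigid data (R1 - R4): the admissible field `X` is the fibre gradient of `F` and has exactly one
zero in the block, which is nondegenerate. -/
structure IsRD (β : G →* (EB ≃ₗᵢ[ℝ] EB)) (B : Set EB) (ρ : G →* (Fib U A ≃ₗᵢ[ℝ] Fib U A))
    (φ : U → ℝ) (J : A →L[ℝ] A) (R L C e₀ c₀ : ℝ) (F : EB × Fib U A → ℝ)
    (X : EB × Fib U A → Fib U A) : Prop where
  cpt : IsCompact B
  act : ∀ g, ∀ b ∈ B, β g b ∈ B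
  invφ : ∀ g w, φ (ρ g w).fst = φ w.fst
  inv : IsInv J
  dm : IsDm φ R
  epos : 0 < e₀
  cpos : 0 < c₀
  fld : IsFld β B ρ φ J R L C e₀ c₀ X
  cF : Continuous F
  sX : ContDiff ℝ 1 X
  grad : ∀ b w, HasFDerivAt (fun y => F (b, y)) (innerSL ℝ (X (b, w))) w
  rigid : ∀ b ∈ B, ∃ c : Fib U A, φ c.fst ≤ 0 ∧ X (b, c) = 0 ∧
    Function.Injective (fderiv ℝ (fun y => X (b, y)) c) ∧
    ∀ w : Fib U A, φ w.fst ≤ 0 → X (b, w) = 0 → w = c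

/-- A map `q` of the block into `{φ ≤ -e}` that contracts the positive part and expands the
negative part, up to the constant `C₁`. -/
structure IsBlk (φ : U → ℝ) (J : A →L[ℝ] A) (e θ C₁ : ℝ) (q : Fib U A → Fib U A) : Prop where
  into : ∀ w, φ w.fst ≤ 0 → φ (q w).fst ≤ -e
  pos : ∀ w, φ w.fst ≤ 0 → ‖pos J (q w)‖ ^ 2 ≤ θ * ‖pos J w‖ ^ 2 + C₁
  neg : ∀ w, φ w.fst ≤ 0 → ‖neg J w‖ ^ 2 ≤ θ * ‖neg J (q w)‖ ^ 2 + C₁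

/-- The output: a path `p` from the step `id - t X` to `f₂ ∘ f₁`. -/
structure IsDyn (β : G →* (EB ≃ₗᵢ[ℝ] EB)) (B : Set EB) (ρ : G →* (Fib U A ≃ₗᵢ[ℝ] Fib U A))
    (φ : U → ℝ) (J : A →L[ℝ] A) (X : EB × Fib U A → Fib U A) (t e θ C₁ K : ℝ)
    (c : EB → Fib U A) (e₁ δ δ₂ : ℝ) (p : ℝ × EB × Fib U A → Fib U A)
    (f₁ f₂ : EB × Fib U A → Fib U A) (Bp : ℝ → EB → Fib U A →L[ℝ] Fib U A)
    (B₁ B₂ : EB → Fib U A →L[ℝ] Fib U A) : Prop where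
  e1pos : 0 < e₁
  e1le : e₁ ≤ 1
  dpos : 0 < δ
  cc : Continuous c
  cp : Continuous p
  c1 : Continuous f₁
  c2 : Continuous f₂
  ec : ∀ g, ∀ b ∈ B, c (β g b) = ρ g (c b)
  ep : ∀ τ g, ∀ b ∈ B, ∀ w, p (τ, β g b, ρ g w) = ρ g (p (τ, b, w))
  e1 : ∀ g, ∀ b ∈ B, ∀ w, f₁ (β g b, ρ g w) = ρ g (f₁ (b, w))
  e2 : ∀ g, ∀ b ∈ B, ∀ w, f₂ (β g b, ρ g w) = ρ g (f₂ (b, w))
  p0 : ∀ b w, p (0, b, w) = w - t • X (b, w)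
  p1 : ∀ b w, p (1, b, w) = f₂ (b, f₁ (b, w))
  bp : ∀ τ ∈ Icc (0 : ℝ) 1, ∀ b ∈ B, IsBlk φ J e θ C₁ fun w => p (τ, b, w)
  b1 : ∀ b ∈ B, IsBlk φ J e θ C₁ fun w => f₁ (b, w)
  b2 : ∀ b ∈ B, IsBlk φ J e θ C₁ fun w => f₂ (b, w)
  cle : ∀ b ∈ B, ‖c b‖ ≤ C₁
  ball : ∀ b ∈ B, ∀ v, ‖v‖ ≤ 3 * e₁ → φ (c b + v).fst ≤ 0
  linp : ∀ τ ∈ Icc (0 : ℝ) 1, ∀ b ∈ B, ∀ v, ‖v‖ ≤ δ → p (τ, b, c b + v) = c b + Bp τ b v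
  symp : ∀ τ ∈ Icc (0 : ℝ) 1, ∀ b ∈ B, ∀ u v, ⟪Bp τ b u, v⟫ = ⟪u, Bp τ b v⟫
  posp : ∀ τ ∈ Icc (0 : ℝ) 1, ∀ b ∈ B, ∀ v, 0 ≤ ⟪Bp τ b v, v⟫
  lin1 : ∀ b ∈ B, ∀ v, ‖v‖ ≤ δ → f₁ (b, c b + v) = c b + B₁ b v ∧ ‖B₁ b v‖ ≤ δ₂
  lin2 : ∀ b ∈ B, ∀ v, ‖v‖ ≤ 3 * δ₂ → f₂ (b, c b + v) = c b + B₂ b v
  comp : ∀ b v, B₂ b (B₁ b v) = Bp 1 b v
  /-- (a) -/
  per : ∀ τ ∈ Icc (0 : ℝ) 1, ∀ b ∈ B, ∀ (k : ZMod 5) (z : ZMod 5 → Fib U A),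
    (∀ i, z i = p (τ, b, z (i - k))) → (∀ i, φ (z i).fst ≤ 0) → (∀ i, ‖(z i).snd‖ < K) →
    ∀ i, z i = c b
  /-- (b), no mixing -/
  exit0 : ∀ b ∈ B, ∀ w : Fib U A, φ w.fst ≤ 0 → ‖w.snd‖ ≤ K → e₁ ≤ ‖f₁ (b, w) - c b‖ →
    K ≤ ‖neg J (f₂ (b, f₁ (b, w)))‖
  /-- (b) -/
  exit5 : ∀ b ∈ B, ∀ w v' : ZMod 5 → Fib U A, (∀ i, φ (w i).fst ≤ 0) → (∀ i, ‖(w i).snd‖ ≤ K) →
    (∀ i, ‖f₁ (b, w i) - c b‖ ≤ e₁) → (∃ i, e₁ ≤ ‖f₁ (b, w i) - c b‖) →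
    Mix (fun i => f₁ (b, w i) - c b) v' → ∃ i, K ≤ ‖neg J (f₂ (b, c b + v' i))‖
  /-- (c) -/
  per5 : ∀ b ∈ B, ∀ (k : ZMod 5) (z v' : ZMod 5 → Fib U A), (∀ i, φ (z i).fst ≤ 0) →
    (∀ i, ‖(z i).snd‖ < K) → (∀ i, ‖f₁ (b, z i) - c b‖ ≤ e₁) →
    Mix (fun i => f₁ (b, z i) - c b) v' → (∀ i, z i = f₂ (b, c b + v' (i - k))) → ∀ i, z i = c b

end

/-- One step along a vector that points inwards. -/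
def StStep : Prop :=
  ∀ (U : Type) [NormedAddCommGroup U] [InnerProductSpace ℝ U] [FiniteDimensional ℝ U]
    (φ : U → ℝ) (R C e₀ c₀ : ℝ), IsDm φ R → 0 < e₀ → 0 < c₀ →
    ∃ t₀ > 0, ∀ s ∈ Icc (0 : ℝ) t₀, ∀ x y : U, φ x ≤ 0 → ‖y‖ ≤ C →
      (-e₀ ≤ φ x → c₀ ≤ fderiv ℝ φ x y) → φ (x - s • y) ≤ max (φ x - s * c₀ / 2) (-e₀ / 2)

/-- Short steps along admissible fields are block maps; the constants do not depend on the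
field. -/
def StBlk : Prop :=
  ∀ (U : Type) [NormedAddCommGroup U] [InnerProductSpace ℝ U] [FiniteDimensional ℝ U]
    (φ : U → ℝ) (R C e₀ c₀ : ℝ), IsDm φ R → 0 < e₀ → 0 < c₀ →
    ∃ t₀ > 0, ∀ t ∈ Ioc (0 : ℝ) t₀, ∃ e > 0, ∃ θ C₁ : ℝ, 0 ≤ θ ∧ θ < 1 ∧
      ∀ (G : Type) [Group G] (EB : Type) [NormedAddCommGroup EB] [InnerProductSpace ℝ EB]
        (A : Type) [NormedAddCommGroup A] [InnerProductSpace ℝ A]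
        (β : G →* (EB ≃ₗᵢ[ℝ] EB)) (B : Set EB) (ρ : G →* (Fib U A ≃ₗᵢ[ℝ] Fib U A))
        (J : A →L[ℝ] A) (L : ℝ) (X : EB × Fib U A → Fib U A), IsInv J →
        IsFld β B ρ φ J R L C e₀ c₀ X → ∀ b ∈ B, IsBlk φ J e θ C₁ fun w => w - t • X (b, w)

/-- The dynamics of rigid data. -/
def StDyn : Prop :=
  ∀ (G : Type) [Group G] (EB : Type) [NormedAddCommGroup EB] [InnerProductSpace ℝ EB]
    (U : Type) [NormedAddCommGroup U] [InnerProductSpace ℝ U] [FiniteDimensional ℝ U]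
    (A : Type) [NormedAddCommGroup A] [InnerProductSpace ℝ A] [FiniteDimensional ℝ A]
    (β : G →* (EB ≃ₗᵢ[ℝ] EB)) (B : Set EB) (ρ : G →* (Fib U A ≃ₗᵢ[ℝ] Fib U A)) (φ : U → ℝ)
    (J : A →L[ℝ] A) (R L C e₀ c₀ : ℝ) (F : EB × Fib U A → ℝ) (X : EB × Fib U A → Fib U A),
    IsRD β B ρ φ J R L C e₀ c₀ F X →
    ∃ (X' : EB × Fib U A → Fib U A) (L' C' : ℝ), IsFld β B ρ φ J R L' C' e₀ c₀ X' ∧
      ∃ t₀ > 0, ∀ t ∈ Ioc (0 : ℝ) t₀, ∃ e > 0, ∃ θ C₁ : ℝ, 0 ≤ θ ∧ θ < 1 ∧ ∀ K, C₁ ≤ K →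
        ∃ c e₁ δ δ₂ p f₁ f₂ Bp B₁ B₂, IsDyn β B ρ φ J X' t e θ C₁ K c e₁ δ δ₂ p f₁ f₂ Bp B₁ B₂

end Vale.Agent.P220Z.Dyn
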