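import Mathlib

/-!
# P220, dynamics: iteration of descent steps in a block
-/

open Set
open scoped RealInnerProductSpace

namespace Vale.Agent.P220Z.Dyn

variable {W : Type} [NormedAddCommGroup W]

/-- Steps `g u`, `0 ≤ u ≤ 1`, that preserve the block `D`, the bound `np ≤ K` and the exit set
`K ≤ nm`, and along which `F` drops. -/
structure Sys (D : Set W) (nm np : W → ℝ) (K κ : ℝ) (F : W → ℝ) (c : W) (g : ℝ → W → W) :
    Prop where
  kpos : 0 < κ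
  into : ∀ u ∈ Icc (0 : ℝ) 1, ∀ w ∈ D, g u w ∈ D
  pos : ∀ u ∈ Icc (0 : ℝ) 1, ∀ w ∈ D, np w ≤ K → np (g u w) ≤ K
  neg : ∀ u ∈ Icc (0 : ℝ) 1, ∀ w ∈ D, K ≤ nm w → K ≤ nm (g u w)
  drop : ∀ u ∈ Icc (0 : ℝ) 1, ∀ w ∈ D, np w ≤ K → nm w ≤ K →
    F (g u w) ≤ F w - u * κ * ‖w - c‖ ^ 2

namespace Sys

variable {D : Set W} {nm np : W → ℝ} {K κ : ℝ} {F : W → ℝ} {c : W} {g : ℝ → W → W}

theorem one_mem : (1 : ℝ) ∈ Icc (0 : ℝ) 1 := ⟨zero_le_one, le_rfl⟩

theorem iter_into (h : Sys D nm np K κ F c g) {u : ℝ} (hu : u ∈ Icc (0 : ℝ) 1) (n : ℕ) :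
    ∀ w ∈ D, (g u)^[n] w ∈ D := by
  induction n with
  | zero => exact fun w hw => hw
  | succ n ih => exact fun w hw => ih _ (h.into u hu w hw)

theorem iter_pos (h : Sys D nm np K κ F c g) {u : ℝ} (hu : u ∈ Icc (0 : ℝ) 1) (n : ℕ) :
    ∀ w ∈ D, np w ≤ K → np ((g u)^[n] w) ≤ K := by
  induction n with
  | zero => exact fun w _ hw => hw
  | succ n ih => exact fun w hw hp => ih _ (h.into u hu w hw) (h.pos u hu w hw hp)

theorem iter_neg (h : Sys D nm np K κ F c g) {u : ℝ} (hu : u ∈ Icc (0 : ℝ) 1) (n : ℕ) :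
    ∀ w ∈ D, K ≤ nm w → K ≤ nm ((g u)^[n] w) := by
  induction n with
  | zero => exact fun w _ hw => hw
  | succ n ih => exact fun w hw hp => ih _ (h.into u hu w hw) (h.neg u hu w hw hp)

theorem step_le (h : Sys D nm np K κ F c g) {u : ℝ} (hu : u ∈ Icc (0 : ℝ) 1) {w : W} (hw : w ∈ D)
    (hp : np w ≤ K) (hm : nm (g u w) < K) : F (g u w) ≤ F w - u * κ * ‖w - c‖ ^ 2 :=
  h.drop u hu w hw hp (by
    by_contra hlt
    exact absurd (h.neg u hu w hw (not_le.1 hlt).le) (not_le.2 hm))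

theorem iter_le (h : Sys D nm np K κ F c g) {u : ℝ} (hu : u ∈ Icc (0 : ℝ) 1) (n : ℕ) :
    ∀ w ∈ D, np w ≤ K → nm ((g u)^[n] w) < K → F ((g u)^[n] w) ≤ F w := by
  induction n with
  | zero => exact fun w _ _ _ => le_rfl
  | succ n ih =>
    intro w hw hp hm
    rw [Function.iterate_succ_apply] at hm ⊢
    have h1 := ih _ (h.into u hu w hw) (h.pos u hu w hw hp) hm
    have h2 : nm (g u w) < K := by
      by_contra hlt
      exact absurd (h.iter_neg hu n _ (h.into u hu w hw) (not_lt.1 hlt)) (not_le.2 hm)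
    have h3 := h.step_le hu hw hp h2
    have h4 : 0 ≤ u * κ * ‖w - c‖ ^ 2 := by
      have := hu.1
      have := h.kpos
      positivity
    linarith

/-- a full step followed by any number of steps -/
theorem first_le (h : Sys D nm np K κ F c g) {u : ℝ} (hu : u ∈ Icc (0 : ℝ) 1) (n : ℕ) {w : W}
    (hw : w ∈ D) (hp : np w ≤ K) (hm : nm ((g u)^[n] (g 1 w)) < K) :
    F ((g u)^[n] (g 1 w)) ≤ F w - κ * ‖w - c‖ ^ 2 := by
  have h1 := h.iter_le hu n _ (h.into 1 one_mem w hw) (h.pos 1 one_mem w hw hp) hm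
  have h2 : nm (g 1 w) < K := by
    by_contra hlt
    exact absurd (h.iter_neg hu n _ (h.into 1 one_mem w hw) (not_lt.1 hlt)) (not_le.2 hm)
  have h3 := h.step_le one_mem hw hp h2
  linarith

/-- periodic sequences are constant -/
theorem periodic (h : Sys D nm np K κ F c g) {u : ℝ} (hu : u ∈ Icc (0 : ℝ) 1) (n : ℕ)
    (k : ZMod 5) (z : ZMod 5 → W) (hD : ∀ i, z i ∈ D) (hp : ∀ i, np (z i) ≤ K)
    (hm : ∀ i, nm (z i) < K) (hz : ∀ i, z i = (g u)^[n] (g 1 (z (i - k)))) (i : ZMod 5) :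
    z i = c := by
  have h1 : ∀ i, F (z i) ≤ F (z (i - k)) - κ * ‖z (i - k) - c‖ ^ 2 := fun i => by
    have := h.first_le hu n (hD (i - k)) (hp (i - k)) (by rw [← hz i]; exact hm i)
    rwa [← hz i] at this
  have h2 := Finset.sum_le_sum fun i (_ : i ∈ Finset.univ) => h1 i
  have e1 : ∑ i, (F (z (i - k)) - κ * ‖z (i - k) - c‖ ^ 2) =
      ∑ i, (F (z i) - κ * ‖z i - c‖ ^ 2) :=
    Equiv.sum_comp (Equiv.subRight k) fun i => F (z i) - κ * ‖z i - c‖ ^ 2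
  rw [e1, Finset.sum_sub_distrib, ← Finset.mul_sum] at h2
  have h3 : ∑ i, ‖z i - c‖ ^ 2 ≤ 0 := by
    by_contra hlt
    have := mul_pos h.kpos (not_le.1 hlt)
    linarith
  have h4 : ‖z i - c‖ ^ 2 ≤ ∑ i, ‖z i - c‖ ^ 2 :=
    Finset.single_le_sum (f := fun i => ‖z i - c‖ ^ 2) (fun _ _ => sq_nonneg _) (Finset.mem_univ i)
  have h5 : ‖z i - c‖ = 0 := by nlinarith [norm_nonneg (z i - c)]
  exact sub_eq_zero.1 (norm_eq_zero.1 h5)

theorem low_aux (h : Sys D nm np K κ F c g) {η δ : ℝ} (hδ : 0 ≤ δ)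
    (hs : ∀ w ∈ D, np w ≤ K → nm w ≤ K → η ≤ |F w - F c| → δ ≤ ‖w - c‖) (n : ℕ) :
    ∀ w ∈ D, np w ≤ K → nm ((g 1)^[n] w) < K → (F w ≤ F c - η ∨ F c + η ≤ F ((g 1)^[n] w)) →
      F ((g 1)^[n] w) ≤ F w - n * (κ * δ ^ 2) := by
  induction n with
  | zero => intro w _ _ _ _; simp
  | succ n ih =>
    intro w hw hp hm hl
    have h0 := h.iter_le one_mem (n + 1) w hw hp hm
    rw [Function.iterate_succ_apply] at hm hl h0 ⊢
    have h2 : nm (g 1 w) < K := by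
      by_contra hlt
      exact absurd (h.iter_neg one_mem n _ (h.into 1 one_mem w hw) (not_lt.1 hlt)) (not_le.2 hm)
    have h2' : nm w ≤ K := by
      by_contra hlt
      exact absurd (h.neg 1 one_mem w hw (not_le.1 hlt).le) (not_le.2 h2)
    have h3 := h.step_le one_mem hw hp h2
    have h4 : δ ≤ ‖w - c‖ := by
      refine hs w hw hp h2' ?_
      rcases hl with hl | hl
      · exact le_trans (by linarith) (neg_le_abs _)
      · exact le_trans (by linarith) (le_abs_self _)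
    have h5 : κ * δ ^ 2 ≤ κ * ‖w - c‖ ^ 2 :=
      mul_le_mul_of_nonneg_left (pow_le_pow_left₀ hδ h4 2) h.kpos.le
    have h6 : 0 ≤ κ * δ ^ 2 := mul_nonneg h.kpos.le (sq_nonneg _)
    have h7 := ih _ (h.into 1 one_mem w hw) (h.pos 1 one_mem w hw hp) hm (by
      rcases hl with hl | hl
      · left; linarith
      · right; exact hl)
    push_cast
    linarith

/-- after many steps the orbit has left the block or its level is close to the critical level -/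
theorem exit (h : Sys D nm np K κ F c g) {η δ M : ℝ} (hδ : 0 ≤ δ)
    (hs : ∀ w ∈ D, np w ≤ K → nm w ≤ K → η ≤ |F w - F c| → δ ≤ ‖w - c‖)
    (hM : ∀ w ∈ D, np w ≤ K → nm w ≤ K → |F w| ≤ M) {n : ℕ} (hn : 2 * M < n * (κ * δ ^ 2))
    {w : W} (hw : w ∈ D) (hp : np w ≤ K) (hm : nm ((g 1)^[n] w) < K) :
    F c - η < F w ∧ F ((g 1)^[n] w) < F c + η := by
  by_contra hc
  have hl : F w ≤ F c - η ∨ F c + η ≤ F ((g 1)^[n] w) := by
    rw [not_and_or, not_lt, not_lt] at hc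
    exact hc
  have h1 := h.low_aux hδ hs n w hw hp hm hl
  have h2 := hM _ (h.iter_into one_mem n w hw) (h.iter_pos one_mem n w hw hp) hm.le
  have h3 := hM w hw hp (by
    by_contra hlt
    exact absurd (h.iter_neg one_mem n w hw (not_le.1 hlt).le) (not_le.2 hm))
  have := abs_le.1 h2
  have := abs_le.1 h3
  linarith

end Sys

section Mix

variable [InnerProductSpace ℝ W]

/-- `v'` and `v` have the same sums of all quadratic forms -/
def Mix (v v' : ZMod 5 → W) : Prop :=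
  ∀ S : W →L[ℝ] W, ∑ i, ⟪S (v' i), v' i⟫ = ∑ i, ⟪S (v i), v i⟫

theorem Mix.norm_sq {v v' : ZMod 5 → W} (h : Mix v v') : ∑ i, ‖v' i‖ ^ 2 = ∑ i, ‖v i‖ ^ 2 := by
  simpa [real_inner_self_eq_norm_sq] using h (ContinuousLinearMap.id ℝ W)

theorem Mix.norm_le {v v' : ZMod 5 → W} (h : Mix v v') {e : ℝ} (he : 0 ≤ e)
    (hv : ∀ i, ‖v i‖ ≤ e) (i : ZMod 5) : ‖v' i‖ ≤ 3 * e := by
  have h1 : ‖v' i‖ ^ 2 ≤ ∑ i, ‖v' i‖ ^ 2 :=
    Finset.single_le_sum (f := fun i => ‖v' i‖ ^ 2) (fun _ _ => sq_nonneg _) (Finset.mem_univ i)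
  have h2 : ∑ i, ‖v i‖ ^ 2 ≤ ∑ _i : ZMod 5, e ^ 2 :=
    Finset.sum_le_sum fun i _ => pow_le_pow_left₀ (norm_nonneg _) (hv i) 2
  rw [h.norm_sq] at h1
  simp only [Finset.sum_const, Finset.card_univ, ZMod.card, nsmul_eq_mul, Nat.cast_ofNat] at h2
  exact le_of_sq_le_sq₀' he (h1.trans h2)
where
  le_of_sq_le_sq₀' {x e : ℝ} (he : 0 ≤ e) (h : x ^ 2 ≤ 5 * e ^ 2) : x ≤ 3 * e := by
    nlinarith

/-- Data near the critical point: Taylor estimate on the ball of radius `3 e`, the numbers of steps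
`n + 1` are large. -/
structure Loc (D : Set W) (nm np : W → ℝ) (K κ : ℝ) (F : W → ℝ) (c : W) (g : ℝ → W → W)
    (H : W →L[ℝ] W) (e : ℝ) (n₀ : ℕ) : Prop extends Sys D nm np K κ F c g where
  epos : 0 < e
  ball : ∀ v, ‖v‖ ≤ 3 * e → c + v ∈ D ∧ np (c + v) ≤ K ∧ nm (c + v) < K
  tay : ∀ v, ‖v‖ ≤ 3 * e → |F (c + v) - F c - ⟪H v, v⟫ / 2| ≤ κ / 80 * ‖v‖ ^ 2
  two : ∀ w, ‖w - c‖ ≤ e → ‖g 1 w - c‖ ≤ 2 * ‖w - c‖
  many : ∀ n, n₀ ≤ n → ∀ w ∈ D, np w ≤ K → nm ((g 1)^[n] w) < K →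
    F c - κ * e ^ 2 / 80 < F w ∧ F ((g 1)^[n] w) < F c + κ * e ^ 2 / 80

namespace Loc

variable {D : Set W} {nm np : W → ℝ} {K κ : ℝ} {F : W → ℝ} {c : W} {g : ℝ → W → W}
  {H : W →L[ℝ] W} {e : ℝ} {n₀ : ℕ}

open Sys

theorem level (h : Loc D nm np K κ F c g H e n₀) {n : ℕ} (hn : n₀ ≤ n) {w : W} (hw : w ∈ D)
    (hp : np w ≤ K) (hm : nm ((g 1)^[n + 1] w) < K) :
    F ((g 1)^[n + 1] w) ≤ F c + κ * e ^ 2 / 80 ∧
      (e ≤ ‖(g 1)^[n + 1] w - c‖ → F ((g 1)^[n + 1] w) ≤ F c - 19 * (κ * e ^ 2 / 80)) := by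
  refine ⟨(h.many (n + 1) (by omega) w hw hp hm).2.le, fun he => ?_⟩
  rw [Function.iterate_succ_apply'] at hm he ⊢
  have hD := h.toSys.iter_into one_mem n w hw
  have hP := h.toSys.iter_pos one_mem n w hw hp
  have hm' : nm ((g 1)^[n] w) < K := by
    by_contra hlt
    exact absurd (h.neg 1 one_mem _ hD (not_lt.1 hlt)) (not_le.2 hm)
  have h1 := (h.many n hn w hw hp hm').2
  have h2 := h.toSys.step_le one_mem hD hP hm
  have h3 : e / 2 ≤ ‖(g 1)^[n] w - c‖ := by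
    by_contra hlt
    have hlt := not_le.1 hlt
    have := h.two ((g 1)^[n] w) (by linarith [h.epos])
    linarith
  have h4 : κ * (e / 2) ^ 2 ≤ κ * ‖(g 1)^[n] w - c‖ ^ 2 :=
    mul_le_mul_of_nonneg_left (pow_le_pow_left₀ (by linarith [h.epos]) h3 2) h.kpos.le
  nlinarith

theorem low (h : Loc D nm np K κ F c g H e n₀) {n : ℕ} (hn : n₀ ≤ n) {w : W} (hw : w ∈ D)
    (hp : np w ≤ K) (hl : F w ≤ F c - κ * e ^ 2 / 80) : K ≤ nm ((g 1)^[n] w) := by
  by_contra hlt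
  exact absurd (h.many n hn w hw hp (not_le.1 hlt)).1 (not_lt.2 hl)

/-- a point that is not close to `c` after the first block of steps leaves in the second block -/
theorem exit0 (h : Loc D nm np K κ F c g H e n₀) {n n' : ℕ} (hn : n₀ ≤ n) (hn' : n₀ ≤ n') {w : W}
    (hw : w ∈ D) (hp : np w ≤ K) (he : e ≤ ‖(g 1)^[n + 1] w - c‖) :
    K ≤ nm ((g 1)^[n'] ((g 1)^[n + 1] w)) := by
  have hD := h.toSys.iter_into one_mem (n + 1) w hw
  by_cases hm : nm ((g 1)^[n + 1] w) < K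
  · refine h.low hn' hD (h.toSys.iter_pos one_mem (n + 1) w hw hp) ?_
    have h1 := (h.level hn hw hp hm).2 he
    have h2 : 0 ≤ κ * e ^ 2 / 80 := by
      have := h.kpos
      positivity
    linarith
  · exact h.toSys.iter_neg one_mem n' _ hD (not_lt.1 hm)

theorem mix_le (h : Loc D nm np K κ F c g H e n₀) {v v' : ZMod 5 → W} (hv : ∀ i, ‖v i‖ ≤ e)
    (hmix : Mix v v') :
    ∑ i, F (c + v' i) ≤ ∑ i, F (c + v i) + κ / 40 * ∑ i, ‖v i‖ ^ 2 := by
  have h1 : ∀ i, F (c + v' i) ≤ F c + ⟪H (v' i), v' i⟫ / 2 + κ / 80 * ‖v' i‖ ^ 2 := fun i => by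
    have := (abs_le.1 (h.tay _ (hmix.norm_le h.epos.le hv i))).2
    linarith
  have h2 : ∀ i, F c + ⟪H (v i), v i⟫ / 2 - κ / 80 * ‖v i‖ ^ 2 ≤ F (c + v i) := fun i => by
    have := (abs_le.1 (h.tay _ ((hv i).trans (by linarith [h.epos])))).1
    linarith
  have h3 := Finset.sum_le_sum fun i (_ : i ∈ Finset.univ) => h1 i
  have h4 := Finset.sum_le_sum fun i (_ : i ∈ Finset.univ) => h2 i
  simp only [Finset.sum_add_distrib, Finset.sum_sub_distrib, ← Finset.sum_div,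
    ← Finset.mul_sum] at h3 h4
  rw [hmix H, hmix.norm_sq] at h3
  linarith

/-- five points close to `c`, one of them not very close: after mixing one of them leaves -/
theorem exit5 (h : Loc D nm np K κ F c g H e n₀) {n n' : ℕ} (hn : n₀ ≤ n) (hn' : n₀ ≤ n')
    {w v' : ZMod 5 → W} (hw : ∀ i, w i ∈ D) (hp : ∀ i, np (w i) ≤ K)
    (hv : ∀ i, ‖(g 1)^[n + 1] (w i) - c‖ ≤ e) (he : ∃ i, e ≤ ‖(g 1)^[n + 1] (w i) - c‖)
    (hmix : Mix (fun i => (g 1)^[n + 1] (w i) - c) v') :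
    ∃ i, K ≤ nm ((g 1)^[n'] (c + v' i)) := by
  obtain ⟨j, hj⟩ := he
  have hm : ∀ i, nm ((g 1)^[n + 1] (w i)) < K := fun i => by
    have := (h.ball _ ((hv i).trans (by linarith [h.epos]))).2.2
    simpa using this
  have h1 : ∀ i, F ((g 1)^[n + 1] (w i)) ≤
      F c + κ * e ^ 2 / 80 - if i = j then 20 * (κ * e ^ 2 / 80) else 0 := fun i => by
    split_ifs with hij
    · subst hij
      have := (h.level hn (hw i) (hp i) (hm i)).2 hj
      linarith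
    · have := (h.level hn (hw i) (hp i) (hm i)).1
      linarith
  have h2 := Finset.sum_le_sum fun i (_ : i ∈ Finset.univ) => h1 i
  simp only [Finset.sum_sub_distrib, Finset.sum_const, Finset.card_univ, ZMod.card,
    Finset.sum_ite_eq', Finset.mem_univ, if_true, nsmul_eq_mul, Nat.cast_ofNat] at h2
  have h3 := h.mix_le hv hmix
  simp only [add_sub_cancel] at h3
  have h4 : ∑ i, ‖(g 1)^[n + 1] (w i) - c‖ ^ 2 ≤ ∑ _i : ZMod 5, e ^ 2 :=
    Finset.sum_le_sum fun i _ => pow_le_pow_left₀ (norm_nonneg _) (hv i) 2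
  simp only [Finset.sum_const, Finset.card_univ, ZMod.card, nsmul_eq_mul, Nat.cast_ofNat] at h4
  have h5 : κ / 40 * ∑ i, ‖(g 1)^[n + 1] (w i) - c‖ ^ 2 ≤ κ / 40 * (5 * e ^ 2) :=
    mul_le_mul_of_nonneg_left h4 (by linarith [h.kpos])
  by_contra hno
  have h6 : ∀ i, F c - κ * e ^ 2 / 80 < F (c + v' i) := fun i => by
    have hb := h.ball _ (hmix.norm_le h.epos.le hv i)
    by_contra hl
    exact hno ⟨i, h.low hn' hb.1 hb.2.1 (not_lt.1 hl)⟩
  have h7 := Finset.sum_lt_sum_of_nonempty Finset.univ_nonempty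
    fun i (_ : i ∈ Finset.univ) => h6 i
  simp only [Finset.sum_const, Finset.card_univ, ZMod.card, nsmul_eq_mul, Nat.cast_ofNat] at h7
  linarith

/-- periodic sequences of the mixed iteration are constant -/
theorem periodic5 (h : Loc D nm np K κ F c g H e n₀) {n n' : ℕ} (k : ZMod 5)
    {z v' : ZMod 5 → W} (hw : ∀ i, z i ∈ D) (hp : ∀ i, np (z i) ≤ K) (hm : ∀ i, nm (z i) < K)
    (hv : ∀ i, ‖(g 1)^[n] (z i) - c‖ ≤ e) (hmix : Mix (fun i => (g 1)^[n] (z i) - c) v')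
    (hz : ∀ i, z i = (g 1)^[n' + 1] (c + v' (i - k))) (i : ZMod 5) : z i = c := by
  have hb := fun i => h.ball _ (hmix.norm_le h.epos.le hv i)
  have h1 : ∀ i, F (z i) ≤ F (c + v' (i - k)) - κ * ‖v' (i - k)‖ ^ 2 := fun i => by
    have := h.toSys.first_le one_mem n' (hb (i - k)).1 (hb (i - k)).2.1
      (by rw [← Function.iterate_succ_apply, ← hz i]; exact hm i)
    rw [← Function.iterate_succ_apply, ← hz i] at this
    simpa using this
  have h2 := Finset.sum_le_sum fun i (_ : i ∈ Finset.univ) => h1 i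
  have e1 : ∑ i, (F (c + v' (i - k)) - κ * ‖v' (i - k)‖ ^ 2) =
      ∑ i, (F (c + v' i) - κ * ‖v' i‖ ^ 2) :=
    Equiv.sum_comp (Equiv.subRight k) fun i => F (c + v' i) - κ * ‖v' i‖ ^ 2
  rw [e1, Finset.sum_sub_distrib, ← Finset.mul_sum] at h2
  have h3 := h.mix_le hv hmix
  simp only [add_sub_cancel] at h3
  have h4 : ∀ i, F ((g 1)^[n] (z i)) ≤ F (z i) := fun i =>
    h.toSys.iter_le one_mem n _ (hw i) (hp i) (by
      have := (h.ball _ ((hv i).trans (by linarith [h.epos]))).2.2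
      simpa using this)
  have h5 := Finset.sum_le_sum fun i (_ : i ∈ Finset.univ) => h4 i
  rw [← hmix.norm_sq] at h3
  have h6 : ∑ i, ‖v' i‖ ^ 2 ≤ 0 := by
    by_contra hlt
    have := mul_pos h.kpos (not_le.1 hlt)
    linarith
  have h7 : v' (i - k) = 0 := by
    have h8 : ‖v' (i - k)‖ ^ 2 ≤ ∑ i, ‖v' i‖ ^ 2 :=
      Finset.single_le_sum (f := fun i => ‖v' i‖ ^ 2) (fun _ _ => sq_nonneg _) (Finset.mem_univ _)
    exact norm_eq_zero.1 (by nlinarith [norm_nonneg (v' (i - k))])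
  have h9 : g 1 c = c := by
    have := h.two c (by simpa using h.epos.le)
    simpa [sub_eq_zero] using this
  rw [hz i, h7, add_zero]
  exact Function.iterate_fixed h9 _

end Loc

end Mix

end Vale.Agent.P220Z.Dyn
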