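import Vale.Agent.P220Z.Dyn.Step
import Vale.Agent.P220Z.Dyn.Crit

/-!
# P220, dynamics: the field is made linear near its zero
-/

open Set Metric Filter Topology
open scoped RealInnerProductSpace

namespace Vale.Agent.P220Z.Dyn

/-- a cut-off function: one for `x ≤ ε / 2`, zero for `ε ≤ x` -/
noncomputable def cut (ε x : ℝ) : ℝ := max 0 (min 1 (2 - 2 / ε * x))

theorem cut_nonneg (ε x : ℝ) : 0 ≤ cut ε x := le_max_left _ _

theorem cut_le_one (ε x : ℝ) : cut ε x ≤ 1 := max_le zero_le_one (min_le_left _ _)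

theorem cut_one {ε x : ℝ} (hε : 0 < ε) (hx : x ≤ ε / 2) : cut ε x = 1 := by
  have h : 2 / ε * x ≤ 1 := by
    rw [div_mul_eq_mul_div, div_le_one hε]
    linarith
  unfold cut
  rw [min_eq_left (by linarith), max_eq_right zero_le_one]

theorem cut_zero {ε x : ℝ} (hε : 0 < ε) (hx : ε ≤ x) : cut ε x = 0 := by
  have h : 2 ≤ 2 / ε * x := by
    rw [div_mul_eq_mul_div, le_div_iff₀ hε]
    linarith
  exact max_eq_left ((min_le_right _ _).trans (by linarith))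

theorem cut_lip {ε : ℝ} (hε : 0 < ε) (x y : ℝ) : |cut ε x - cut ε y| ≤ 2 / ε * |x - y| := by
  unfold cut
  have h0 : ∀ a : ℝ, |a - a| ≤ 2 / ε * |x - y| := fun a => by
    rw [sub_self, abs_zero]
    positivity
  refine (abs_max_sub_max_le_max _ _ _ _).trans (max_le (h0 _) ?_)
  refine (abs_min_sub_min_le_max _ _ _ _).trans (max_le (h0 _) ?_)
  have e : 2 - 2 / ε * x - (2 - 2 / ε * y) = -(2 / ε * (x - y)) := by ring
  rw [e, abs_neg, abs_mul, abs_of_pos (by positivity)]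

theorem continuous_cut (ε : ℝ) : Continuous (cut ε) := by
  unfold cut
  fun_prop

section

variable {G : Type} [Group G]
  {EB : Type} [NormedAddCommGroup EB] [InnerProductSpace ℝ EB]
  {U : Type} [NormedAddCommGroup U] [InnerProductSpace ℝ U] [FiniteDimensional ℝ U]
  {A : Type} [NormedAddCommGroup A] [InnerProductSpace ℝ A] [FiniteDimensional ℝ A]
  {β : G →* (EB ≃ₗᵢ[ℝ] EB)} {B : Set EB} {ρ : G →* (Fib U A ≃ₗᵢ[ℝ] Fib U A)} {φ : U → ℝ}
  {J : A →L[ℝ] A} {R L C e₀ c₀ : ℝ} {F : EB × Fib U A → ℝ} {X : EB × Fib U A → Fib U A}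

omit [FiniteDimensional ℝ U] [FiniteDimensional ℝ A] [InnerProductSpace ℝ U]
  [InnerProductSpace ℝ A] in
theorem norm_le_fst_snd (w : Fib U A) : ‖w‖ ≤ ‖w.fst‖ + ‖w.snd‖ := by
  have h := WithLp.prod_norm_sq_eq_of_L2 w
  have h1 := norm_nonneg w.fst
  have h2 := norm_nonneg w.snd
  exact le_of_sq_le_sq₀'' (by positivity) (by nlinarith [mul_nonneg h1 h2])
where
  le_of_sq_le_sq₀'' {x y : ℝ} (hy : 0 ≤ y) (h : x ^ 2 ≤ y ^ 2) : x ≤ y := by
    nlinarith [abs_le_of_sq_le_sq' h hy]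

/-- the part of the block over `B` where the second component is bounded is compact -/
theorem IsRD.compact (h : IsRD β B ρ φ J R L C e₀ c₀ F X) (K : ℝ) {T : Set (EB × Fib U A)}
    (hT : IsClosed T) : IsCompact {z : EB × Fib U A | z.1 ∈ B ∧ φ z.2.fst ≤ 0 ∧ ‖z.2.snd‖ ≤ K ∧
      z ∈ T} := by
  have h1 : Continuous fun z : EB × Fib U A => φ z.2.fst :=
    h.dm.smooth.continuous.comp ((WithLp.continuous_fst 2 U A).comp continuous_snd)
  have h2 : Continuous fun z : EB × Fib U A => ‖z.2.snd‖ :=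
    ((WithLp.continuous_snd 2 U A).comp continuous_snd).norm
  refine (h.cpt.prod (isCompact_closedBall (0 : Fib U A) (R + K))).of_isClosed_subset ?_ ?_
  · exact (h.cpt.isClosed.preimage continuous_fst).inter ((isClosed_le h1 continuous_const).inter
      ((isClosed_le h2 continuous_const).inter hT))
  · rintro z ⟨hz1, hz2, hz3, -⟩
    refine ⟨hz1, mem_closedBall_zero_iff.2 ?_⟩
    linarith [norm_le_fst_snd z.2, h.dm.bdd _ hz2]

theorem IsRD.exists_crit (h : IsRD β B ρ φ J R L C e₀ c₀ F X) :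
    ∃ c : EB → Fib U A, Continuous c ∧ ∀ b ∈ B, φ (c b).fst ≤ 0 ∧ X (b, c b) = 0 ∧
      Function.Injective (dX X b (c b)) ∧
      ∀ w : Fib U A, φ w.fst ≤ 0 → X (b, w) = 0 → w = c b := by
  have hS := h.compact C (T := {z | X z = 0}) (isClosed_eq h.fld.cont continuous_const)
  have hb : ∀ b ∈ B, ∀ w : Fib U A, φ w.fst ≤ 0 → X (b, w) = 0 → ‖w.snd‖ ≤ C := by
    intro b hb w hw h0
    have := (h.fld.bdd b hb w (by linarith [h.dm.bdd _ hw])).2
    rwa [h0, WithLp.zero_snd, zero_sub, norm_neg, h.inv.norm_eq] at this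
  obtain ⟨c, hc, hm⟩ := exists_section h.cpt hS fun b hb' => by
    obtain ⟨c, h1, h2, -, h4⟩ := h.rigid b hb'
    exact ⟨c, ⟨hb', h1, hb b hb' c h1 h2, h2⟩, fun w hw => h4 w hw.2.1 hw.2.2.2⟩
  refine ⟨c, hc, fun b hb' => ?_⟩
  obtain ⟨c', h1, h2, h3, h4⟩ := h.rigid b hb'
  have e : c b = c' := h4 _ (hm b hb').2.1 (hm b hb').2.2.2
  rw [e]
  exact ⟨h1, h2, h3, h4⟩

/-- The modified field `X'`. -/
structure IsMod (β : G →* (EB ≃ₗᵢ[ℝ] EB)) (B : Set EB) (ρ : G →* (Fib U A ≃ₗᵢ[ℝ] Fib U A))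
    (φ : U → ℝ) (J : A →L[ℝ] A) (R e₀ c₀ : ℝ) (X : EB × Fib U A → Fib U A) (c : EB → Fib U A)
    (X' : EB × Fib U A → Fib U A) (L' C' Λ ε κ₀ : ℝ) : Prop where
  fld : IsFld β B ρ φ J R L' C' e₀ c₀ X'
  cc : Continuous c
  ec : ∀ g, ∀ b ∈ B, c (β g b) = ρ g (c b)
  zero : ∀ b ∈ B, X (b, c b) = 0
  uniq : ∀ b ∈ B, ∀ w : Fib U A, φ w.fst ≤ 0 → X (b, w) = 0 → w = c b
  lpos : 0 < Λ
  hle : ∀ b ∈ B, ∀ v, ‖dX X b (c b) v‖ ≤ Λ * ‖v‖
  epos : 0 < ε
  kpos : 0 < κ₀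
  ball : ∀ b ∈ B, ∀ v, ‖v‖ ≤ ε → φ (c b + v).fst ≤ 0
  low : ∀ b ∈ B, ∀ v, ‖v‖ ≤ ε → κ₀ * ‖v‖ ≤ ‖X (b, c b + v)‖
  near : ∀ b ∈ B, ∀ w, ‖X' (b, w) - X (b, w)‖ ≤ ‖X (b, w)‖ / 4
  lin : ∀ b ∈ B, ∀ v, ‖v‖ ≤ ε / 2 → X' (b, c b + v) = dX X b (c b) v

omit [FiniteDimensional ℝ U] [FiniteDimensional ℝ A] in
theorem IsRD.dX_equi (h : IsRD β B ρ φ J R L C e₀ c₀ F X) (g : G) {b : EB} (hb : b ∈ B)
    (w v : Fib U A) : dX X (β g b) (ρ g w) (ρ g v) = ρ g (dX X b w v) := by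
  have h1 := (hasFDerivAt_dX h.sX (β g b) (ρ g w)).comp w
    ((ρ g).toContinuousLinearEquiv : Fib U A →L[ℝ] Fib U A).hasFDerivAt
  have h2 := ((ρ g).toContinuousLinearEquiv : Fib U A →L[ℝ] Fib U A).hasFDerivAt.comp w
    (hasFDerivAt_dX h.sX b w)
  have h3 := h2.congr_of_eventuallyEq (f₁ := (fun y => X (β g b, y)) ∘ ρ g)
    (Eventually.of_forall fun y => h.fld.equi g b hb y)
  exact congrArg (fun T : Fib U A →L[ℝ] Fib U A => T v) (h1.unique h3)

theorem IsRD.exists_mod (h : IsRD β B ρ φ J R L C e₀ c₀ F X) :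
    ∃ c X' L' C' Λ ε κ₀, IsMod β B ρ φ J R e₀ c₀ X c X' L' C' Λ ε κ₀ := by
  obtain ⟨c, hc, hcr⟩ := h.exists_crit
  have hH : Continuous fun b => dX X b (c b) :=
    (continuous_dX h.sX).comp (continuous_id.prodMk hc)
  obtain ⟨κ, hκ, hlow⟩ := lower_bound h.cpt hH fun b hb => (hcr b hb).2.2.1
  obtain ⟨Λ₀, hΛ₀⟩ := h.cpt.exists_bound_of_continuousOn hH.continuousOn
  obtain ⟨Λ, hΛ, hle⟩ : ∃ Λ > 0, ∀ b ∈ B, ∀ v, ‖dX X b (c b) v‖ ≤ Λ * ‖v‖ :=
    ⟨|Λ₀| + 1, by positivity, fun b hb v => ((dX X b (c b)).le_opNorm v).trans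
      (mul_le_mul_of_nonneg_right (by linarith [hΛ₀ b hb, le_abs_self Λ₀]) (norm_nonneg _))⟩
  obtain ⟨ε₁, hε₁, hT⟩ := taylor_field h.cpt h.sX hc (fun b hb => (hcr b hb).2.1)
    (ω := κ / 8) (by positivity)
  have hin : ∀ b ∈ B, φ (c b).fst < -e₀ := by
    intro b hb
    by_contra hlt
    have := h.fld.face b hb (c b) (not_lt.1 hlt) (hcr b hb).1
    rw [(hcr b hb).2.1, WithLp.zero_fst, map_zero] at this
    linarith [h.cpos]
  have hev : ∀ᶠ v in 𝓝 (0 : Fib U A), ∀ b ∈ B, φ (c b + v).fst < -e₀ := by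
    refine h.cpt.eventually_forall_of_forall_eventually fun b hb => ?_
    have hcont : Continuous fun z : Fib U A × EB => φ (c z.2 + z.1).fst :=
      h.dm.smooth.continuous.comp ((WithLp.continuous_fst 2 U A).comp
        ((hc.comp continuous_snd).add continuous_fst))
    refine hcont.continuousAt.eventually_lt continuousAt_const ?_
    simpa using hin b hb
  obtain ⟨ε₂, hε₂, hball⟩ := Metric.nhds_basis_closedBall.eventually_iff.1 hev
  obtain ⟨ε, hε, h1, h2⟩ : ∃ ε > 0, ε ≤ ε₁ ∧ ε ≤ ε₂ :=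
    ⟨min ε₁ ε₂, lt_min hε₁ hε₂, min_le_left _ _, min_le_right _ _⟩
  have hball' : ∀ b ∈ B, ∀ v, ‖v‖ ≤ ε → φ (c b + v).fst < -e₀ := fun b hb v hv =>
    hball (x := v) (mem_closedBall_zero_iff.2 (hv.trans h2)) b hb
  have hT' : ∀ b ∈ B, ∀ w, ‖w - c b‖ ≤ ε →
      ‖dX X b (c b) (w - c b) - X (b, w)‖ ≤ κ / 8 * ‖w - c b‖ := fun b hb w hw => by
    have := hT b hb (w - c b) (hw.trans h1)
    rwa [add_sub_cancel, norm_sub_rev] at this
  have hlow' : ∀ b ∈ B, ∀ w, ‖w - c b‖ ≤ ε → κ / 2 * ‖w - c b‖ ≤ ‖X (b, w)‖ := fun b hb w hw => by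
    have h3 := hT' b hb w hw
    have h4 := hlow b hb (w - c b)
    have h5 := norm_sub_norm_le (dX X b (c b) (w - c b)) (X (b, w))
    have h6 := mul_nonneg hκ.le (norm_nonneg (w - c b))
    linarith
  have hec : ∀ g, ∀ b ∈ B, c (β g b) = ρ g (c b) := fun g b hb => by
    refine ((hcr _ (h.act g b hb)).2.2.2 _ ?_ ?_).symm
    · rw [h.invφ]
      exact (hcr b hb).1
    · rw [h.fld.equi g b hb, (hcr b hb).2.1, map_zero]
  let Y : EB × Fib U A → Fib U A := fun z =>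
    cut ε ‖z.2 - c z.1‖ • (dX X z.1 (c z.1) (z.2 - c z.1) - X z)
  have hYc : Continuous Y := by
    have h3 : Continuous fun z : EB × Fib U A => z.2 - c z.1 :=
      continuous_snd.sub (hc.comp continuous_fst)
    exact ((continuous_cut ε).comp h3.norm).smul
      (((hH.comp continuous_fst).clm_apply h3).sub h.fld.cont)
  have hY0 : ∀ b w, ε ≤ ‖w - c b‖ → Y (b, w) = 0 := fun b w hw => by
    simp only [Y, cut_zero hε hw, zero_smul]
  have hYle : ∀ b ∈ B, ∀ w, ‖w - c b‖ ≤ ε → ‖Y (b, w)‖ ≤ κ / 8 * ‖w - c b‖ := fun b hb w hw => by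
    simp only [Y, norm_smul, Real.norm_of_nonneg (cut_nonneg _ _)]
    exact (mul_le_of_le_one_left (norm_nonneg _) (cut_le_one _ _)).trans (hT' b hb w hw)
  have hYb : ∀ b ∈ B, ∀ w, ‖Y (b, w)‖ ≤ κ / 8 * ε := fun b hb w => by
    rcases le_total ‖w - c b‖ ε with hw | hw
    · exact (hYle b hb w hw).trans (mul_le_mul_of_nonneg_left hw (by positivity))
    · rw [hY0 b w hw, norm_zero]
      positivity
  have hYl1 : ∀ b ∈ B, ∀ w w' : Fib U A, ‖w.fst‖ ≤ R → ‖w'.fst‖ ≤ R → ‖w' - c b‖ ≤ ε →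
      ‖Y (b, w) - Y (b, w')‖ ≤ (Λ + |L| + κ / 4) * ‖w - w'‖ := by
    intro b hb w w' hw hw' hv
    have e : Y (b, w) - Y (b, w') = cut ε ‖w - c b‖ • (dX X b (c b) (w - w') -
        (X (b, w) - X (b, w'))) + (cut ε ‖w - c b‖ - cut ε ‖w' - c b‖) •
        (dX X b (c b) (w' - c b) - X (b, w')) := by
      simp only [Y, map_sub]
      module
    have h3 : ‖dX X b (c b) (w - w') - (X (b, w) - X (b, w'))‖ ≤ (Λ + |L|) * ‖w - w'‖ := by
      have := h.fld.lip b hb w w' hw hw'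
      have := mul_le_mul_of_nonneg_right (le_abs_self L) (norm_nonneg (w - w'))
      linarith [norm_sub_le (dX X b (c b) (w - w')) (X (b, w) - X (b, w')), hle b hb (w - w')]
    have h4 : |cut ε ‖w - c b‖ - cut ε ‖w' - c b‖| ≤ 2 / ε * ‖w - w'‖ := by
      refine (cut_lip hε _ _).trans (mul_le_mul_of_nonneg_left ?_ (by positivity))
      simpa using abs_norm_sub_norm_le (w - c b) (w' - c b)
    have h5 : ‖dX X b (c b) (w' - c b) - X (b, w')‖ ≤ κ / 8 * ε :=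
      (hT' b hb w' hv).trans (mul_le_mul_of_nonneg_left hv (by positivity))
    have h6 := mul_le_mul h4 h5 (norm_nonneg _) (by positivity)
    have h7 : 2 / ε * ‖w - w'‖ * (κ / 8 * ε) = κ / 4 * ‖w - w'‖ := by
      field_simp
      ring
    rw [e]
    refine (norm_add_le _ _).trans ?_
    rw [norm_smul, norm_smul, Real.norm_of_nonneg (cut_nonneg _ _), Real.norm_eq_abs]
    have h8 := (mul_le_of_le_one_left (norm_nonneg _) (cut_le_one ε ‖w - c b‖)).trans h3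
    linarith
  have hYl : ∀ b ∈ B, ∀ w w' : Fib U A, ‖w.fst‖ ≤ R → ‖w'.fst‖ ≤ R →
      ‖Y (b, w) - Y (b, w')‖ ≤ (Λ + |L| + κ / 4) * ‖w - w'‖ := by
    intro b hb w w' hw hw'
    rcases le_total ‖w' - c b‖ ε with hv' | hv'
    · exact hYl1 b hb w w' hw hw' hv'
    rcases le_total ‖w - c b‖ ε with hv | hv
    · rw [norm_sub_rev, norm_sub_rev w]
      exact hYl1 b hb w' w hw' hw hv
    · rw [hY0 b w hv, hY0 b w' hv', sub_zero, norm_zero]
      positivity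
  refine ⟨c, fun z => X z + Y z, L + (Λ + |L| + κ / 4), C + κ / 8 * ε, Λ, ε, κ / 2,
    ⟨h.fld.cont.add hYc, fun g b hb w => ?_, fun b hb w w' hw hw' => ?_, fun b hb w hw => ?_,
      fun b hb w h3 h4 => ?_⟩, hc, hec, fun b hb => (hcr b hb).2.1,
    fun b hb => (hcr b hb).2.2.2, hΛ, hle, hε, by positivity,
    fun b hb v hv => by linarith [hball' b hb v hv, h.epos], fun b hb v hv => ?_,
    fun b hb w => ?_, fun b hb v hv => ?_⟩
  · simp only [Y, hec g b hb, ← map_sub, LinearIsometryEquiv.norm_map, h.dX_equi g hb,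
      h.fld.equi g b hb, map_add, map_smul]
  · have e : X (b, w) + Y (b, w) - (X (b, w') + Y (b, w')) =
        X (b, w) - X (b, w') + (Y (b, w) - Y (b, w')) := by abel
    rw [e]
    linarith [norm_add_le (X (b, w) - X (b, w')) (Y (b, w) - Y (b, w')), hYl b hb w w' hw hw',
      h.fld.lip b hb w w' hw hw']
  · have h3 := h.fld.bdd b hb w hw
    have h4 := (WithLp.norm_fst_le _ (Y (b, w))).trans (hYb b hb w)
    have h5 := (WithLp.norm_snd_le _ (Y (b, w))).trans (hYb b hb w)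
    rw [WithLp.add_fst, WithLp.add_snd, add_sub_right_comm]
    exact ⟨(norm_add_le _ _).trans (by linarith [h3.1]),
      (norm_add_le _ _).trans (by linarith [h3.2])⟩
  · have h5 : ε ≤ ‖w - c b‖ := by
      by_contra hlt
      have := hball' b hb (w - c b) (not_le.1 hlt).le
      rw [add_sub_cancel] at this
      linarith
    rw [hY0 b w h5, add_zero]
    exact h.fld.face b hb w h3 h4
  · simpa using hlow' b hb (c b + v) (by simpa using hv)
  · rw [add_sub_cancel_left]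
    rcases le_total ‖w - c b‖ ε with hw | hw
    · linarith [hYle b hb w hw, hlow' b hb w hw]
    · rw [hY0 b w hw, norm_zero]
      positivity
  · simp only [Y, add_sub_cancel_left, cut_one hε hv, one_smul, add_sub_cancel]

end

end Vale.Agent.P220Z.Dyn
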