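import Vale.Agent.P220Z.Dyn.Defs

/-!
# P220, dynamics: one step along an admissible field
-/

open Set Metric
open scoped RealInnerProductSpace

namespace Vale.Agent.P220Z.Dyn

section

variable {W : Type} [NormedAddCommGroup W] [NormedSpace ℝ W]

theorem descent' {f : W → ℝ} (hf : Differentiable ℝ f) {S : Set W} (hS : Convex ℝ S) {L : ℝ}
    (hL : 0 ≤ L) (hl : ∀ w ∈ S, ∀ w' ∈ S, ‖fderiv ℝ f w - fderiv ℝ f w'‖ ≤ L * ‖w - w'‖)
    {w h : W} (hw : w ∈ S) (hh : w + h ∈ S) :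
    f (w + h) ≤ f w + fderiv ℝ f w h + L * ‖h‖ ^ 2 := by
  have key := Convex.norm_image_sub_le_of_norm_hasFDerivWithin_le'
    (f := f) (f' := fun y => fderiv ℝ f y) (φ := fderiv ℝ f w) (C := L * ‖h‖)
    (s := S ∩ closedBall w ‖h‖) (x := w) (y := w + h)
    (fun y _ => (hf y).hasFDerivAt.hasFDerivWithinAt)
    (fun y hy => by
      refine (hl y hy.1 w hw).trans (mul_le_mul_of_nonneg_left ?_ hL)
      simpa [dist_eq_norm] using hy.2)
    (hS.inter (convex_closedBall _ _)) ⟨hw, mem_closedBall_self (norm_nonneg _)⟩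
    ⟨hh, by simp⟩
  simp only [add_sub_cancel_left, Real.norm_eq_abs] at key
  have := (abs_le.1 key).2
  nlinarith

end

theorem stStep : StStep := by
  intro U _ _ _ φ R C e₀ c₀ hφ he hc
  have hK : IsCompact (closedBall (0 : U) R) := isCompact_closedBall _ _
  obtain ⟨L, hL⟩ := (hφ.smooth.fderiv_right (m := 1) (by norm_num)).contDiffOn.exists_lipschitzOnWith
    (s := closedBall (0 : U) R) (by norm_num) (convex_closedBall _ _) hK
  obtain ⟨M, hM⟩ := hφ.smooth.contDiffOn.exists_lipschitzOnWith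
    (s := closedBall (0 : U) R) (by norm_num) (convex_closedBall _ _) hK
  have hL0 : (0 : ℝ) ≤ L := L.2
  have hM0 : (0 : ℝ) ≤ M := M.2
  obtain ⟨C', hC', hC0⟩ : ∃ C', C ≤ C' ∧ 0 < C' := ⟨|C| + 1, by linarith [le_abs_self C],
    by positivity⟩
  refine ⟨min (1 / C') (min (c₀ / (2 * (L + 1) * C' ^ 2)) (e₀ / (2 * (M + 1) * C'))),
    by positivity, fun s hs x y hx hy hf => ?_⟩
  have hs0 := hs.1
  have hs1 : s * C' ≤ 1 := by
    have := hs.2.trans (min_le_left _ _)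
    rwa [le_div_iff₀ hC0] at this
  have hs2 : s * (2 * (L + 1) * C' ^ 2) ≤ c₀ := by
    have := hs.2.trans ((min_le_right _ _).trans (min_le_left _ _))
    rwa [le_div_iff₀ (by positivity)] at this
  have hs3 : s * (2 * (M + 1) * C') ≤ e₀ := by
    have := hs.2.trans ((min_le_right _ _).trans (min_le_right _ _))
    rwa [le_div_iff₀ (by positivity)] at this
  have hn : ‖s • y‖ ≤ s * C' := by
    rw [norm_smul, Real.norm_of_nonneg hs0]
    exact mul_le_mul_of_nonneg_left (hy.trans hC') hs0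
  have hx1 := hφ.bdd x hx
  have hxm : x ∈ closedBall (0 : U) R := by
    rw [mem_closedBall_zero_iff]
    linarith
  have hxm' : x - s • y ∈ closedBall (0 : U) R := by
    rw [mem_closedBall_zero_iff]
    linarith [norm_sub_le x (s • y)]
  by_cases h : -e₀ ≤ φ x
  · refine le_max_of_le_left ?_
    have h1 := descent' (hφ.smooth.differentiable (by norm_num)) (convex_closedBall (0 : U) R) hL0
      (fun w hw w' hw' => by simpa [dist_eq_norm] using hL.dist_le_mul w hw w' hw')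
      (h := -(s • y)) hxm (by rwa [← sub_eq_add_neg])
    rw [← sub_eq_add_neg, map_neg, map_smul, norm_neg, smul_eq_mul] at h1
    have h2 := mul_le_mul_of_nonneg_left (hf h) hs0
    have h3 : ‖s • y‖ ^ 2 ≤ (s * C') ^ 2 := pow_le_pow_left₀ (norm_nonneg _) hn 2
    have h4 := mul_le_mul_of_nonneg_left h3 hL0
    have h5 := mul_le_mul_of_nonneg_left hs2 hs0
    have h6 : 0 ≤ s ^ 2 * C' ^ 2 := by positivity
    nlinarith
  · refine le_max_of_le_right ?_
    have h1 := hM.dist_le_mul _ hxm' _ hxm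
    rw [Real.dist_eq, dist_eq_norm, sub_sub_cancel_left, norm_neg] at h1
    have h2 := (abs_le.1 h1).2
    have h3 := mul_le_mul_of_nonneg_left hn hM0
    have h4 : 0 ≤ s * C' := by positivity
    have h5 := not_le.1 h
    nlinarith

section PM

variable {U : Type} [NormedAddCommGroup U] [InnerProductSpace ℝ U]
  {A : Type} [NormedAddCommGroup A] [InnerProductSpace ℝ A] {J : A →L[ℝ] A}

theorem IsInv.norm_eq (hJ : IsInv J) (u : A) : ‖J u‖ = ‖u‖ := by
  have h : ‖J u‖ ^ 2 = ‖u‖ ^ 2 := by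
    rw [← real_inner_self_eq_norm_sq, ← real_inner_self_eq_norm_sq, hJ.symm, hJ.sq]
  exact (sq_eq_sq₀ (norm_nonneg _) (norm_nonneg _)).1 h

theorem IsInv.half_add (hJ : IsInv J) (u : A) : ‖(1 / 2 : ℝ) • (u + J u)‖ ≤ ‖u‖ := by
  have := norm_add_le u (J u)
  rw [hJ.norm_eq] at this
  rw [norm_smul, Real.norm_of_nonneg (by norm_num)]
  linarith

theorem IsInv.half_sub (hJ : IsInv J) (u : A) : ‖(1 / 2 : ℝ) • (u - J u)‖ ≤ ‖u‖ := by
  have := norm_sub_le u (J u)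
  rw [hJ.norm_eq] at this
  rw [norm_smul, Real.norm_of_nonneg (by norm_num)]
  linarith

omit [InnerProductSpace ℝ U] [NormedAddCommGroup U] in
theorem IsInv.pos_le (hJ : IsInv J) (w : Fib U A) : ‖pos J w‖ ≤ ‖w.snd‖ := hJ.half_add _

omit [InnerProductSpace ℝ U] [NormedAddCommGroup U] in
theorem IsInv.neg_le (hJ : IsInv J) (w : Fib U A) : ‖neg J w‖ ≤ ‖w.snd‖ := hJ.half_sub _

omit [InnerProductSpace ℝ U] [NormedAddCommGroup U] in
theorem pos_add_neg (J : A →L[ℝ] A) (w : Fib U A) : pos J w + neg J w = w.snd := by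
  unfold pos neg
  module

theorem IsInv.pos_step (hJ : IsInv J) {w y : Fib U A} {s C : ℝ} (hs0 : 0 ≤ s) (hs1 : s ≤ 1)
    (hy : ‖y.snd - J w.snd‖ ≤ C) : ‖pos J (w - s • y)‖ ≤ (1 - s) * ‖pos J w‖ + s * C := by
  have e : pos J (w - s • y) = (1 - s) • pos J w -
      s • ((1 / 2 : ℝ) • ((y.snd - J w.snd) + J (y.snd - J w.snd))) := by
    simp only [pos, WithLp.sub_snd, WithLp.smul_snd, map_sub, map_smul, hJ.sq]
    module
  rw [e]
  refine (norm_sub_le _ _).trans ?_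
  rw [norm_smul, norm_smul s, Real.norm_of_nonneg hs0, Real.norm_of_nonneg (by linarith)]
  have := mul_le_mul_of_nonneg_left ((hJ.half_add _).trans hy) hs0
  linarith

theorem IsInv.neg_step (hJ : IsInv J) {w y : Fib U A} {s C : ℝ} (hs0 : 0 ≤ s)
    (hy : ‖y.snd - J w.snd‖ ≤ C) : (1 + s) * ‖neg J w‖ - s * C ≤ ‖neg J (w - s • y)‖ := by
  have e : (1 + s) • neg J w = neg J (w - s • y) +
      s • ((1 / 2 : ℝ) • ((y.snd - J w.snd) - J (y.snd - J w.snd))) := by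
    simp only [neg, WithLp.sub_snd, WithLp.smul_snd, map_sub, map_smul, hJ.sq]
    module
  have h1 := norm_add_le (neg J (w - s • y))
    (s • ((1 / 2 : ℝ) • ((y.snd - J w.snd) - J (y.snd - J w.snd))))
  rw [← e, norm_smul, norm_smul s, Real.norm_of_nonneg hs0,
    Real.norm_of_nonneg (by linarith)] at h1
  have := mul_le_mul_of_nonneg_left ((hJ.half_sub _).trans hy) hs0
  linarith

theorem sq_le_of_le {x y θ C C₁ : ℝ} (hx : 0 ≤ x) (hθ0 : 0 ≤ θ) (hθ : θ < 1)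
    (h : x ≤ θ * y + C) (hC : C ^ 2 ≤ (1 - θ) * C₁) : x ^ 2 ≤ θ * y ^ 2 + C₁ := by
  have h1 : x ^ 2 ≤ (θ * y + C) ^ 2 := pow_le_pow_left₀ hx h 2
  have h2 : 0 ≤ θ * ((1 - θ) * y - C) ^ 2 := by positivity
  have h3 : 0 < 1 - θ := by linarith
  have h4 : (1 - θ) * (θ * y + C) ^ 2 ≤ (1 - θ) * (θ * y ^ 2 + C₁) := by nlinarith
  exact h1.trans (le_of_mul_le_mul_left h4 h3)

/-- the estimates for the steps `w - s Y w`, `0 ≤ s ≤ t` -/
structure Stp (φ : U → ℝ) (J : A →L[ℝ] A) (t C e₀ c₀ : ℝ) (Y : Fib U A → Fib U A) : Prop where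
  inv : IsInv J
  tpos : 0 < t
  tle : t ≤ 1
  epos : 0 < e₀
  cpos : 0 < c₀
  cnn : 0 ≤ C
  lev : ∀ s ∈ Icc (0 : ℝ) t, ∀ w : Fib U A, φ w.fst ≤ 0 →
    φ (w - s • Y w).fst ≤ max (φ w.fst - s * c₀ / 2) (-e₀ / 2)
  bdd : ∀ w : Fib U A, φ w.fst ≤ 0 → ‖(Y w).snd - J w.snd‖ ≤ C

variable {φ : U → ℝ} {t C e₀ c₀ : ℝ} {Y : Fib U A → Fib U A}

theorem Stp.keep (h : Stp φ J t C e₀ c₀ Y) {s e : ℝ} (hs : s ∈ Icc (0 : ℝ) t) (he0 : 0 ≤ e)
    (he : e ≤ e₀ / 2) {w : Fib U A} (hw : φ w.fst ≤ -e) : φ (w - s • Y w).fst ≤ -e := by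
  refine (h.lev s hs w (by linarith)).trans (max_le ?_ (by linarith))
  have := mul_nonneg hs.1 h.cpos.le
  linarith

theorem Stp.pos_keep (h : Stp φ J t C e₀ c₀ Y) {s P : ℝ} (hs : s ∈ Icc (0 : ℝ) t) (hP : C ≤ P)
    {w : Fib U A} (hw : φ w.fst ≤ 0) (hp : ‖pos J w‖ ≤ P) : ‖pos J (w - s • Y w)‖ ≤ P := by
  have h1 := h.inv.pos_step hs.1 (hs.2.trans h.tle) (h.bdd w hw)
  have h2 := mul_le_mul_of_nonneg_left hp (sub_nonneg.2 (hs.2.trans h.tle))
  have h3 := mul_le_mul_of_nonneg_left hP hs.1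
  linarith

theorem Stp.neg_keep (h : Stp φ J t C e₀ c₀ Y) {s : ℝ} (hs : s ∈ Icc (0 : ℝ) t)
    {w : Fib U A} (hw : φ w.fst ≤ 0) (hp : C ≤ ‖neg J w‖) :
    ‖neg J w‖ ≤ ‖neg J (w - s • Y w)‖ := by
  have h1 := h.inv.neg_step hs.1 (h.bdd w hw)
  have h3 := mul_le_mul_of_nonneg_left hp hs.1
  linarith

/-- a full step followed by any number of short steps is a block map -/
theorem Stp.blk (h : Stp φ J t C e₀ c₀ Y) {s C₁ : ℝ} (hs : s ∈ Icc (0 : ℝ) t)
    (hC : (2 * C) ^ 2 ≤ (1 - 1 / (1 + t)) * C₁) (n : ℕ) :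
    IsBlk φ J (min (t * c₀ / 2) (e₀ / 2)) (1 / (1 + t)) C₁
      fun w => (fun y => y - s • Y y)^[n] (w - t • Y w) := by
  have ht := h.tpos
  have hc := h.cnn
  have hθ0 : 0 ≤ 1 / (1 + t) := by positivity
  have hθ1 : 1 / (1 + t) < 1 := by
    rw [div_lt_one (by linarith)]
    linarith
  have he0 : 0 ≤ min (t * c₀ / 2) (e₀ / 2) := by
    have := h.cpos
    have := h.epos
    positivity
  have htt : t ∈ Icc (0 : ℝ) t := ⟨ht.le, le_rfl⟩
  have key : ∀ w : Fib U A, φ w.fst ≤ 0 → ∀ n : ℕ,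
      φ ((fun y => y - s • Y y)^[n] (w - t • Y w)).fst ≤ -min (t * c₀ / 2) (e₀ / 2) ∧
      ‖pos J ((fun y => y - s • Y y)^[n] (w - t • Y w))‖ ≤ 1 / (1 + t) * ‖pos J w‖ + C ∧
      (C ≤ ‖neg J ((fun y => y - s • Y y)^[n] (w - t • Y w))‖ ∧ ‖neg J w‖ ≤
        1 / (1 + t) * ‖neg J ((fun y => y - s • Y y)^[n] (w - t • Y w))‖ + C ∨
        ‖neg J w‖ ≤ C) := by
    intro w hw n
    induction n with
    | zero =>
      simp only [Function.iterate_zero, id]
      refine ⟨?_, ?_, ?_⟩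
      · refine (h.lev t htt w hw).trans (max_le ?_ ?_)
        · linarith [min_le_left (t * c₀ / 2) (e₀ / 2)]
        · linarith [min_le_right (t * c₀ / 2) (e₀ / 2)]
      · have h1 := h.inv.pos_step ht.le h.tle (h.bdd w hw)
        have h2 : 1 - t ≤ 1 / (1 + t) := by
          rw [le_div_iff₀ (by linarith)]
          nlinarith
        have h3 := mul_le_mul_of_nonneg_right h2 (norm_nonneg (pos J w))
        have h4 := mul_le_mul_of_nonneg_right h.tle hc
        linarith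
      · have h1 := h.inv.neg_step ht.le (h.bdd w hw)
        by_cases hb : C ≤ ‖neg J (w - t • Y w)‖
        · refine Or.inl ⟨hb, ?_⟩
          rw [one_div, inv_mul_eq_div, ← sub_le_iff_le_add, le_div_iff₀ (by linarith)]
          nlinarith
        · refine Or.inr ?_
          have h2 := not_le.1 hb
          nlinarith
    | succ n ih =>
      rw [Function.iterate_succ_apply']
      obtain ⟨i1, i2, i3⟩ := ih
      have hD := i1.trans (neg_nonpos.2 he0)
      refine ⟨h.keep hs he0 (min_le_right _ _) i1, h.pos_keep hs ?_ hD i2, ?_⟩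
      · have := mul_nonneg hθ0 (norm_nonneg (pos J w))
        linarith
      · rcases i3 with ⟨i3, i4⟩ | i3
        · have h1 := h.neg_keep hs hD i3
          refine Or.inl ⟨i3.trans h1, i4.trans ?_⟩
          have := mul_le_mul_of_nonneg_left h1 hθ0
          linarith
        · exact Or.inr i3
  refine ⟨fun w hw => (key w hw n).1, fun w hw => ?_, fun w hw => ?_⟩
  · exact sq_le_of_le (norm_nonneg _) hθ0 hθ1 ((key w hw n).2.1.trans (by linarith)) hC
  · refine sq_le_of_le (norm_nonneg _) hθ0 hθ1 ?_ hC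
    rcases (key w hw n).2.2 with ⟨_, i4⟩ | i3
    · linarith
    · have := mul_nonneg hθ0 (norm_nonneg (neg J ((fun y => y - s • Y y)^[n] (w - t • Y w))))
      linarith

end PM

/-- admissible fields satisfy the step estimates for small `t` -/
theorem exists_stp {U : Type} [NormedAddCommGroup U] [InnerProductSpace ℝ U]
    [FiniteDimensional ℝ U] {φ : U → ℝ} {R e₀ c₀ : ℝ} (C : ℝ) (hφ : IsDm φ R) (he : 0 < e₀)
    (hc : 0 < c₀) : ∃ t₀ > 0, ∀ t ∈ Ioc (0 : ℝ) t₀,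
      ∀ (G : Type) [Group G] (EB : Type) [NormedAddCommGroup EB] [InnerProductSpace ℝ EB]
        (A : Type) [NormedAddCommGroup A] [InnerProductSpace ℝ A]
        (β : G →* (EB ≃ₗᵢ[ℝ] EB)) (B : Set EB) (ρ : G →* (Fib U A ≃ₗᵢ[ℝ] Fib U A))
        (J : A →L[ℝ] A) (L : ℝ) (X : EB × Fib U A → Fib U A), IsInv J →
        IsFld β B ρ φ J R L C e₀ c₀ X → ∀ b ∈ B, Stp φ J t |C| e₀ c₀ fun w => X (b, w) := by
  obtain ⟨t₀, ht₀, hs⟩ := stStep U φ R C e₀ c₀ hφ he hc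
  refine ⟨min t₀ 1, lt_min ht₀ one_pos, fun t ht G _ EB _ _ A _ _ β B ρ J L X hJ hX b hb => ?_⟩
  have hR : ∀ w : Fib U A, φ w.fst ≤ 0 → ‖w.fst‖ ≤ R := fun w hw => by
    linarith [hφ.bdd _ hw]
  refine ⟨hJ, ht.1, ht.2.trans (min_le_right _ _), he, hc, abs_nonneg _, fun s hs' w hw => ?_,
    fun w hw => (hX.bdd b hb w (hR w hw)).2.trans (le_abs_self _)⟩
  exact hs s ⟨hs'.1, hs'.2.trans (ht.2.trans (min_le_left _ _))⟩ w.fst _ hw
    (hX.bdd b hb w (hR w hw)).1 fun h => hX.face b hb w h hw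

theorem one_sub_pos {t : ℝ} (ht : 0 < t) : 0 < 1 - 1 / (1 + t) := by
  rw [sub_pos, div_lt_one (by linarith)]
  linarith

theorem stBlk : StBlk := by
  intro U _ _ _ φ R C e₀ c₀ hφ he hc
  obtain ⟨t₀, ht₀, hs⟩ := exists_stp C hφ he hc
  refine ⟨t₀, ht₀, fun t ht => ?_⟩
  have ht0 := ht.1
  have h1 := one_sub_pos ht0
  refine ⟨min (t * c₀ / 2) (e₀ / 2), by positivity, 1 / (1 + t),
    (2 * |C|) ^ 2 / (1 - 1 / (1 + t)), by positivity, by linarith,
    fun G _ EB _ _ A _ _ β B ρ J L X hJ hX b hb => ?_⟩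
  exact (hs t ht G EB A β B ρ J L X hJ hX b hb).blk (s := 0) ⟨le_rfl, ht0.le⟩
    (by rw [mul_div_cancel₀ _ h1.ne']) 0

end Vale.Agent.P220Z.Dyn
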