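import Vale.Agent.P220Z.Dyn.Core
import Vale.Agent.P220Z.Rig.Blk

/-!
# P220, Theorem A: the core for the retraction `r × id`
-/

open Set

namespace Vale.Agent.P220Z.Dyn

open Vale.Agent.P220Z.Def Vale.Agent.P220Z.Rig

variable {U : Type} [NormedAddCommGroup U] [InnerProductSpace ℝ U] [FiniteDimensional ℝ U]
  {A : Type} [NormedAddCommGroup A] [InnerProductSpace ℝ A]

theorem isRR_rt {ρ : G5 →* (U ≃ₗᵢ[ℝ] U)} {ρW : G5 →* (Fib U A ≃ₗᵢ[ℝ] Fib U A)} {φ : U → ℝ}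
    {r : EB5 × U → U} (hr : IsRetr ρ φ r)
    (hW : ∀ g w, (ρW g w).fst = ρ g w.fst ∧ (ρW g w).snd = w.snd) : IsRR ρW φ (rt r) := by
  have ext : ∀ x y : Fib U A, x.fst = y.fst → x.snd = y.snd → x = y := fun x y h1 h2 =>
    WithLp.ofLp_injective 2 (Prod.ext h1 h2)
  refine ⟨?_, fun b hb w => hr.mem b hb _, fun _ _ _ => rfl,
    fun b hb w hw => ext _ _ (hr.fix b hb _ hw) rfl, fun g b hb w => ext _ _ ?_ ?_⟩
  · refine (WithLp.prod_continuous_toLp 2 U A).comp_continuousOn (ContinuousOn.prodMk ?_ ?_)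
    · exact hr.cont.comp (continuous_fst.prodMk
        ((WithLp.continuous_fst 2 U A).comp continuous_snd)).continuousOn fun _ hy => hy
    · exact ((WithLp.continuous_snd 2 U A).comp continuous_snd).continuousOn
  · rw [(hW g _).1]
    show r (β5 g b, (ρW g w).fst) = ρ g (r (b, w.fst))
    rw [(hW g w).1, hr.eq g b hb]
  · rw [(hW g _).2]
    exact (hW g w).2

theorem thA_core [FiniteDimensional ℝ A] {n : NFun} (hn : IsN n) {ρ : G5 →* (U ≃ₗᵢ[ℝ] U)}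
    {ρW : G5 →* (Fib U A ≃ₗᵢ[ℝ] Fib U A)} {φ : U → ℝ} {J : A →L[ℝ] A} {R L C e₀ c₀ : ℝ}
    {F : EB5 × Fib U A → ℝ} {X : EB5 × Fib U A → Fib U A}
    (h : IsRD β5 B5 ρW φ J R L C e₀ c₀ F X) {r : EB5 × U → U} (hr : IsRetr ρ φ r)
    (hW : ∀ g w, (ρW g w).fst = ρ g w.fst ∧ (ρW g w).snd = w.snd) :
    ∃ (X' : EB5 × Fib U A → Fib U A) (L' C' : ℝ), Dyn.IsFld β5 B5 ρW φ J R L' C' e₀ c₀ X' ∧
      ∃ t₀ > 0, ∀ t ∈ Ioc (0 : ℝ) t₀, ∃ d₀ > 0, ∀ d ∈ Ioc (0 : ℝ) d₀,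
        aInv n ρW d (fun y => rt r y - t • X' (y.1, rt r y)) = 0 := by
  obtain ⟨X', L', C', hX', t₀, ht₀, H⟩ := core hn h
  refine ⟨X', L', C', hX', t₀, ht₀, fun t ht => ?_⟩
  obtain ⟨d₀, hd₀, H⟩ := H t ht _ (isRR_rt hr hW)
  exact ⟨d₀ / 2, half_pos hd₀, fun d hd => H d ⟨hd.1, hd.2.trans_lt (half_lt_self hd₀)⟩⟩

end Vale.Agent.P220Z.Dyn
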